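import Vale.Agent.P267Y.Main
import Vale.Agent.P267I.Sys

/-! The twisted Dolbeault system is the bundle of forms of type (0,*). -/

open scoped Manifold ContDiff Topology ComplexConjugate
open Filter Metric Set Matrix MeasureTheory

noncomputable section

namespace Vale.Agent.P267Y

open Vale.Agent.P267 Vale.Agent.P267I

set_option linter.unusedSectionVars false

variable {X : Type} [TopologicalSpace X] [ChartedSpace C2 X] [T2Space X] [CompactSpace X]
  [IsManifold 𝓘(ℂ, C2) ω X] [MeasurableSpace X] [BorelSpace X] {G : Met X}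
  {u l : X → X → ℂ} {p x : X}

theorem JS_r4 (g : Mat 2) : r4 g = lam gᴴ := by
  ext i j
  fin_cases i <;> fin_cases j <;> simp [r4, lam, det_conjTranspose]

theorem JS_jac (hx : x ∈ (chartAt C2 p).source) : jac p x * P267I.jac p x x = 1 := by
  have hx' := mem_chart_source C2 x
  have a1 := cn_an (p := x) (q := p) hx' hx
  have a2 := cn_an (p := p) (q := x) hx hx'
  have e : (chartAt C2 p ∘ (chartAt C2 x).symm) (chartAt C2 x x) = chartAt C2 p x := by
    simp only [Function.comp_apply, (chartAt C2 x).left_inv hx']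
  have e2 : P267I.jac p x x =
      jm (fderiv ℂ (chartAt C2 p ∘ (chartAt C2 x).symm) (chartAt C2 x x)) := by
    ext i j
    simp [P267I.jac, jm, LinearMap.toMatrix'_apply]
  have d2 := a2.differentiableAt
  rw [e2, jac, ← jm_comp, ← jm_id, ← e] at *
  rw [← fderiv_comp _ d2 a1.differentiableAt, ← fderiv_id (𝕜 := ℂ) (x := chartAt C2 x x)]
  congr 1
  refine Filter.EventuallyEq.fderiv_eq ?_
  filter_upwards [((chartAt C2 x).tendsto_symm hx').eventually
    ((chartAt C2 p).open_source.mem_nhds hx), (chartAt C2 x).eventually_right_inverse' hx']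
    with z h1 h2
  simp only [Function.comp_apply, id, (chartAt C2 p).left_inv h1, h2]

theorem JS_em (h : G.Ln u l) (p : X) (z : C2) : Em h.S4 p z = G.E p z := by
  ext i j
  fin_cases i <;> fin_cases j <;>
    simp [Em, Met.Ln.S4, Met.pre, Met.e, P267F.bs]

theorem dolb_S4 (h : G.Ln u l) : Dolb h.S4 u fun p z => l p ((chartAt C2 p).symm z) := by
  have hl : ∀ {p x : X}, x ∈ G.W p → (chartAt C2 p).symm (chartAt C2 p x) = x := fun hx =>
    (chartAt C2 _).left_inv (G.W_sub _ hx)
  have hE : ∀ {p x : X}, x ∈ G.W p → IsUnit (G.E p (chartAt C2 p x)).det := fun hx =>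
    (G.E_det _ _ ⟨_, hx, rfl⟩).isUnit
  refine ⟨funext fun a => ?_, fun p z _ => ?_, fun p z _ => ?_,
    fun p x hx => ⟨G.W_sub p hx, (h.ne p x hx).2, h.hol p x hx⟩, fun p => ?_, fun p z hz => ?_,
    fun x => ?_, fun p x hx => ?_⟩
  · change cv (P267F.bs a) = cc a
    rw [cv_eq]
    ext i j
    fin_cases a <;> fin_cases i <;> fin_cases j <;> simp [cc, nn, P267F.bs]
  · change G.E p z *ᵥ _ = Complex.I • G.E p z *ᵥ _
    rw [← mulVec_smul]
    congr 1
    funext i
    fin_cases i <;> simp [P267F.bs]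
  · change G.E p z *ᵥ _ = Complex.I • G.E p z *ᵥ _
    rw [← mulVec_smul]
    congr 1
    funext i
    fin_cases i <;> simp [P267F.bs]
  · rintro _ ⟨x, hx, rfl⟩
    exact (((isCh_chartAt p).sm x (G.W_sub p hx) _).1
      (h.sm p x hx)).self_of_nhds.contDiffWithinAt
  · obtain ⟨x, hx, rfl⟩ := hz
    rw [hl hx]
    exact (h.ne p x hx).1
  · have h1 := h.ne x x (G.W_mem x)
    have h2 := JS_jac (mem_chart_source C2 x)
    rw [jac_self, one_mul] at h2
    change G.U4 u l x x = 1
    rw [Met.U4, Met.lam, Met.g0, if_pos (G.W_mem x), if_pos (G.W_mem x),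
      div_self (mul_ne_zero h1.1 h1.2), one_smul, Met.g, gt0, h2, mul_one,
      nonsing_inv_mul _ (hE (G.W_mem x)), r4_one]
  · have h1 := h.ne x x (G.W_mem x)
    have hx' : x ∈ G.W p := hx
    have h2 : G.g p x x * (G.g p x x)ᴴ = 1 := mul_eq_one_comm.1 (G.unit p x x ⟨hx', G.W_mem x⟩)
    have h3 : G.E x (chartAt C2 x x) * (G.g p x x)ᴴ = jac p x * G.E p (chartAt C2 p x) := by
      have h4 : jac p x * G.E p (chartAt C2 p x) * G.g p x x = G.E x (chartAt C2 x x) := by
        rw [Met.g, gt0, ← mul_assoc, ← mul_assoc, mul_assoc (jac p x),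
          mul_nonsing_inv _ (hE hx'), mul_one, JS_jac (G.W_sub p hx'), one_mul]
      rw [← h4, mul_assoc, h2, mul_one]
    change G.U4 u l p x * _ = _
    rw [Met.U4, Met.lam, Met.g0, if_pos hx', if_pos hx', Gm, Gm, JS_em, JS_em, JS_r4,
      hl hx', hl (G.W_mem x), smul_smul, smul_mul_smul_comm, smul_mul_smul_comm, ← lam_mul,
      ← lam_mul, h3]
    congr 1
    field_simp [h1.1, h1.2]

theorem euler_S4 [ConnectedSpace X] (hu : IsBundle HolAt u) (h : G.Ln u l) {B : X → C2 → Mat 4}
    (hB : h.S4.IsOp B) (hH : Hodge h.S4) (hI : h.S4.IndInv) :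
    P267F.Euler u (-(h.S4.ind B)) := by
  have e1 : Z1 id u = P267F.Z1 u := by
    unfold P267F.Z1 Z1
    congr 1
    ext s
    exact ⟨fun h => h.2, fun h => ⟨rfl, h⟩⟩
  have e2 : B1 id u = P267F.B1 u := by
    unfold P267F.B1 B1
    congr 1
    ext f
    exact exists_congr fun s => ⟨fun h => h.2, fun h => ⟨rfl, h⟩⟩
  have k := euler_ind hu (dolb_S4 h) hB hH hI
  unfold Euler H1 at k
  rw [e1, e2, ← br_H0, ← br_H0] at k
  exact k

end Vale.Agent.P267Y
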