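import Vale.Agent.P267Y.Defs
import Vale.Agent.P267I.Defs

/-! P267, the Dolbeault complex as a Dirac system: definitions (FROZEN). -/

open scoped Manifold ContDiff Topology ComplexConjugate
open Filter Metric Set Matrix

noncomputable section

namespace Vale.Agent.P267Y

open Vale.Agent.P267 Vale.Agent.P267I

/-- The Clifford matrices on forms of type (0,*). -/
def cc : Fin 4 → Mat 4 :=
  ![nn 0 - (nn 0)ᴴ, Complex.I • (nn 0 + (nn 0)ᴴ), nn 1 - (nn 1)ᴴ, Complex.I • (nn 1 + (nn 1)ᴴ)]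

/-- The projection on degree `k`. -/
def pr (k : ℕ) : Mat 4 := Matrix.diagonal fun i => if dg i = k then 1 else 0

/-- The part of degree `+1`. -/
def up (B : Mat 4) : Mat 4 := pr 1 * B * pr 0 + pr 2 * B * pr 1

/-- The Cauchy-Riemann derivative of a matrix function. -/
def dbM (F : C2 → Mat 4) (z : C2) (k : Fin 2) : Mat 4 :=
  Matrix.of fun i j => dbar (fun y => F y i j) z (ee k)

variable {X : Type} [TopologicalSpace X] [ChartedSpace C2 X] [MeasurableSpace X]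

/-- Target of I1: finite kernels and the Hodge decomposition. -/
def Hodge {N : ℕ} (S : Pre X N) : Prop :=
  ∀ B, S.IsOp B → (∀ ε, FiniteDimensional ℂ (S.Ker B ε)) ∧
    ∀ t, S.Sm t → ∃ h s, S.Sm h ∧ S.Sm s ∧ S.D B h = 0 ∧ t = h + S.D B s

/-- The unitary frame as a complex matrix with columns `e₀`, `e₂`. -/
def Em (S : Pre X 4) (p : X) (z : C2) : Matrix (Fin 2) (Fin 2) ℂ :=
  !![S.e p 0 z 0, S.e p 2 z 0; S.e p 0 z 1, S.e p 2 z 1]

/-- From components in the chart at `p` to components in the unitary frame. -/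
def Gm (S : Pre X 4) (l : X → C2 → ℂ) (p : X) (z : C2) : Mat 4 := l p z • lam (Em S p z)

/-- The system `S` is the bundle of forms of type (0,*) with values in `u`. -/
structure Dolb (S : Pre X 4) (u : X → X → ℂ) (l : X → C2 → ℂ) : Prop where
  c : S.c = cc
  e1 : ∀ p, ∀ z ∈ S.V p, S.e p 1 z = Complex.I • S.e p 0 z
  e3 : ∀ p, ∀ z ∈ S.V p, S.e p 3 z = Complex.I • S.e p 2 z
  gd : ∀ p, ∀ x ∈ S.W p, Gd u p x
  l_sm : ∀ p, ContDiffOn ℝ ∞ (l p) (S.V p)
  l_ne : ∀ p, ∀ z ∈ S.V p, l p z ≠ 0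
  U_self : ∀ x, S.U x x = 1
  U_eq : ∀ p, ∀ x ∈ S.W p, S.U p x * (u x x • Gm S l x (chartAt C2 x x)) =
    Gm S l p (chartAt C2 p x) * (u p x • lam (jac p x))

/-- The section of the system given by a form. -/
def fr (S : Pre X 4) (u : X → X → ℂ) (l : X → C2 → ℂ) (F : X → C4) (x : X) : C4 :=
  (u x x • Gm S l x (chartAt C2 x x)) *ᵥ F x

/-- The order zero part of `2 ∂̄` in the unitary frame. -/
def Rm (S : Pre X 4) (l : X → C2 → ℂ) (p : X) (z : C2) : Mat 4 :=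
  (2 : ℂ) • (Gm S l p z * ∑ k : Fin 2, nn k * dbM (fun y => (Gm S l p y)⁻¹) z k)

/-- The difference between `2 ∂̄` and the raising part of `D`. -/
def Sd (S : Pre X 4) (l : X → C2 → ℂ) (B : X → C2 → Mat 4) (p : X) (z : C2) : Mat 4 :=
  Rm S l p z - up (B p z)

/-- The order zero part of `2 (∂̄ + ∂̄*)`. -/
def Bd (S : Pre X 4) (l : X → C2 → ℂ) (B : X → C2 → Mat 4) (p : X) (z : C2) : Mat 4 :=
  B p z + (Sd S l B p z + (Sd S l B p z)ᴴ)

/-- The raising part of the principal part. -/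
def Pp (S : Pre X 4) (p : X) (f : C2 → C4) (z : C2) : C4 :=
  (2 : ℂ) • (nn 0 *ᵥ (fun i => dbar (fun y => f y i) z (S.e p 0 z)) +
    nn 1 *ᵥ fun i => dbar (fun y => f y i) z (S.e p 2 z))

/-- The operator of `B` is `2 (∂̄ + ∂̄*)`. -/
structure Good (S : Pre X 4) (u : X → X → ℂ) (l : X → C2 → ℂ) (B : X → C2 → Mat 4) : Prop where
  op : S.IsOp B
  d0 : ∀ F ∈ Om u 0, S.D B (fr S u l F) = fr S u l ((2 : ℂ) • dbN u F)
  d1 : ∀ F ∈ Om u 1, ∀ x, S.D B (fr S u l F) x 3 = fr S u l ((2 : ℂ) • dbN u F) x 3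

/-- The section of `K ⊗ u⁻¹` given by a form of degree two. -/
def du (u : X → X → ℂ) (l : X → C2 → ℂ) (F : X → C4) (x : X) : ℂ :=
  (Complex.normSq (l x (chartAt C2 x x) * u x x) : ℂ) * conj (F x 3)

end Vale.Agent.P267Y
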