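import Vale.Agent.P267S.Dol
import Vale.Agent.P267S.Cal
import Vale.Agent.P267G.G3
import Vale.Agent.P267F.Canon

/-! P267, the Dolbeault complex in chart components: definitions (FROZEN). A form of type (0,*)
with values in the bundle `u` is `F : X → Fin 4 → ℂ`; `F q` are the components on
`1, dz̄₀, dz̄₁, dz̄₀ ∧ dz̄₁` for the chart at `q`. -/

open scoped Manifold ContDiff Topology ComplexConjugate
open Filter Metric Set Matrix

noncomputable section

namespace Vale.Agent.P267Y

open Vale.Agent.P267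

abbrev C4 := Fin 4 → ℂ

/-- The matrix of a complex linear map. -/
def jm (L : C2 →L[ℂ] C2) : Matrix (Fin 2) (Fin 2) ℂ := Matrix.of fun k j => L (ee j) k

/-- The action on forms of type (0,*). -/
def lam (J : Matrix (Fin 2) (Fin 2) ℂ) : Matrix (Fin 4) (Fin 4) ℂ :=
  !![1, 0, 0, 0; 0, conj (J 0 0), conj (J 1 0), 0; 0, conj (J 0 1), conj (J 1 1), 0;
    0, 0, 0, conj J.det]

/-- Exterior multiplication by `dz̄ j`. -/
def nn : Fin 2 → Matrix (Fin 4) (Fin 4) ℂ :=
  ![!![0, 0, 0, 0; 1, 0, 0, 0; 0, 0, 0, 0; 0, 0, 1, 0],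
    !![0, 0, 0, 0; 0, 0, 0, 0; 1, 0, 0, 0; 0, -1, 0, 0]]

/-- The degree of the basis vectors. -/
def dg : Fin 4 → ℕ := ![0, 1, 1, 2]

/-- The flat Cauchy-Riemann operator. -/
def dbF (ψ : C2 → C4) (z : C2) : C4 :=
  ∑ k : Fin 2, nn k *ᵥ fun i => dbar (fun y => ψ y i) z (ee k)

variable {X : Type} [TopologicalSpace X] [ChartedSpace C2 X]

/-- The change of coordinates from the chart at `p` to the chart at `q`. -/
def jac (p q : X) : Matrix (Fin 2) (Fin 2) ℂ :=
  jm (fderiv ℂ (chartAt C2 q ∘ (chartAt C2 p).symm) (chartAt C2 p q))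

/-- The components in the chart at `p` and the frame near `p`. -/
def loc (u : X → X → ℂ) (F : X → C4) (p q : X) : C4 := u p q • lam (jac p q) *ᵥ F q

/-- Smooth at `p`. -/
def SmP (u : X → X → ℂ) (F : X → C4) (p : X) : Prop := ∀ i, SmAt (fun q => loc u F p q i) p

/-- Forms of degree `k`. -/
def Dg (k : ℕ) (F : X → C4) : Prop := ∀ q i, dg i ≠ k → F q i = 0

/-- The Cauchy-Riemann operator. -/
def dbN (u : X → X → ℂ) (F : X → C4) (q : X) : C4 :=
  (u q q)⁻¹ • dbF (loc u F q ∘ (chartAt C2 q).symm) (chartAt C2 q q)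

/-- Smooth forms of degree `k`. -/
def Om (u : X → X → ℂ) (k : ℕ) : Submodule ℂ (X → C4) where
  carrier := {F | (∀ p, SmP u F p) ∧ Dg k F}
  add_mem' := fun {a b} ha hb => ⟨fun p i => ((ha.1 p i).add (hb.1 p i)).congr
    (.of_forall fun q => by simp [loc, mulVec_add, mul_add]),
    fun q i h => by simp [ha.2 q i h, hb.2 q i h]⟩
  zero_mem' := ⟨fun p i => smAt_zero.congr (.of_forall fun q => by simp [loc]),
    fun _ _ _ => rfl⟩
  smul_mem' := fun c a ha => ⟨fun p i => ((ha.1 p i).smul c).congr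
    (.of_forall fun q => by simp [loc, mulVec_smul, mul_left_comm]),
    fun q i h => by simp [ha.2 q i h]⟩

/-- `q` is in the domain of the chart and of the frame chosen near `p`. -/
def Gd (u : X → X → ℂ) (p q : X) : Prop :=
  q ∈ (chartAt C2 p).source ∧ u p q ≠ 0 ∧ HolAt (u p / u q) q

end Vale.Agent.P267Y
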