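import Vale.Agent.P267Y.JA1

/-! Matrix algebra. All by `ext i j; fin_cases i <;> fin_cases j <;> simp [lam, nn, pr, dg, cc, up, Matrix.mul_apply, Fin.sum_univ_succ, Matrix.det_fin_two] <;> ring`. -/

open scoped Manifold ContDiff Topology ComplexConjugate
open Filter Metric Set Matrix MeasureTheory

noncomputable section

namespace Vale.Agent.P267Y

open Vale.Agent.P267 Vale.Agent.P267I

set_option linter.unusedSectionVars false

variable {A E : Matrix (Fin 2) (Fin 2) ℂ}

theorem pr_sum : pr 0 + pr 1 + pr 2 = 1 := by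
  ext i j
  fin_cases i <;> fin_cases j <;> simp [pr, dg]

theorem pr_herm (k : ℕ) : (pr k)ᴴ = pr k := by
  rw [pr, diagonal_conjTranspose]
  congr 1
  funext i
  by_cases h : dg i = k <;> simp [h]

theorem pr_mul (k m : ℕ) : pr k * pr m = if k = m then pr k else 0 := by
  rw [pr, pr, diagonal_mul_diagonal]
  split_ifs with h
  · subst h
    congr 1
    funext i
    by_cases h : dg i = k <;> simp [h]
  · rw [← diagonal_zero]
    congr 1
    funext i
    by_cases h1 : dg i = k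
    · have h2 : ¬dg i = m := fun e => h (h1.symm.trans e)
      simp [h2]
    · simp [h1]

theorem pr_apply (k : ℕ) (v : C4) (i : Fin 4) : (pr k *ᵥ v) i = if dg i = k then v i else 0 := by
  rw [pr, mulVec_diagonal]
  by_cases h : dg i = k <;> simp [h]

theorem dg_iff {k : ℕ} {v : C4} : (∀ i, dg i ≠ k → v i = 0) ↔ pr k *ᵥ v = v := by
  refine ⟨fun h => funext fun i => ?_, fun h i hi => ?_⟩
  · rw [pr_apply]
    split_ifs with hi
    · rfl
    · exact (h i hi).symm
  · rw [← h, pr_apply, if_neg hi]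

theorem JA_c0 : cc 0 = !![0, -1, 0, 0; 1, 0, 0, 0; 0, 0, 0, -1; 0, 0, 1, 0] := by
  ext i j
  fin_cases i <;> fin_cases j <;> simp [cc, nn]

theorem JA_c1 : cc 1 = !![0, Complex.I, 0, 0; Complex.I, 0, 0, 0; 0, 0, 0, Complex.I;
    0, 0, Complex.I, 0] := by
  ext i j
  fin_cases i <;> fin_cases j <;> simp [cc, nn]

theorem JA_c2 : cc 2 = !![0, 0, -1, 0; 0, 0, 0, 1; 1, 0, 0, 0; 0, -1, 0, 0] := by
  ext i j
  fin_cases i <;> fin_cases j <;> simp [cc, nn]

theorem JA_c3 : cc 3 = !![0, 0, Complex.I, 0; 0, 0, 0, -Complex.I; Complex.I, 0, 0, 0;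
    0, -Complex.I, 0, 0] := by
  ext i j
  fin_cases i <;> fin_cases j <;> simp [cc, nn]

theorem JA_up (M : Mat 4) (i j : Fin 4) : up M i j =
    if dg i = dg j + 1 then M i j else 0 := by
  simp only [up, pr, Matrix.add_apply, mul_diagonal, diagonal_mul]
  fin_cases i <;> fin_cases j <;> simp [dg]

theorem gam_cc : cc 0 * cc 1 * cc 2 * cc 3 = pr 1 - pr 0 - pr 2 := by
  rw [JA_c0, JA_c1, JA_c2, JA_c3]
  ext i j
  fin_cases i <;> fin_cases j <;> simp [pr, dg, Matrix.mul_apply, Fin.sum_univ_succ]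

theorem up_cc : up (cc 0) = nn 0 ∧ up (cc 1) = Complex.I • nn 0 ∧ up (cc 2) = nn 1 ∧
    up (cc 3) = Complex.I • nn 1 := by
  rw [JA_c0, JA_c1, JA_c2, JA_c3]
  refine ⟨?_, ?_, ?_, ?_⟩ <;> ext i j <;> rw [JA_up] <;>
    fin_cases i <;> fin_cases j <;> simp [nn, dg]

theorem nn_pr (j : Fin 2) (k : ℕ) : nn j * pr k = pr (k + 1) * nn j := by
  ext a b
  simp only [pr, mul_diagonal, diagonal_mul]
  have h : nn j a b = 0 ∨ dg a = dg b + 1 := by
    fin_cases j <;> fin_cases a <;> fin_cases b <;> simp [nn, dg]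
  rcases h with h | h
  · rw [h, zero_mul, mul_zero]
  · rw [h, mul_comm]
    by_cases e : dg b = k
    · rw [if_pos e, if_pos (by rw [e])]
    · rw [if_neg e, if_neg fun e' => e (Nat.succ_injective e')]

theorem up_of {M : Mat 4} (h : ∀ k, M * pr k = pr (k + 1) * M) : up M = M := by
  have h3 : pr 3 = 0 := by
    ext i j
    fin_cases i <;> fin_cases j <;> simp [pr, dg]
  have e0 : pr 1 * M * pr 0 = M * pr 0 := by
    rw [← h 0, Matrix.mul_assoc, pr_mul, if_pos rfl]
  have e1 : pr 2 * M * pr 1 = M * pr 1 := by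
    rw [← h 1, Matrix.mul_assoc, pr_mul, if_pos rfl]
  have e2 : M * pr 2 = 0 := by rw [h 2, h3, Matrix.zero_mul]
  calc up M = M * pr 0 + M * pr 1 + M * pr 2 := by rw [up, e0, e1, e2, add_zero]
    _ = M := by rw [← Matrix.mul_add, ← Matrix.mul_add, pr_sum, Matrix.mul_one]

theorem up_odd (M : Mat 4) : up M * (pr 1 - pr 0 - pr 2) = -((pr 1 - pr 0 - pr 2) * up M) := by
  ext i j
  simp only [pr, diagonal_sub, mul_diagonal, diagonal_mul, Matrix.neg_apply, JA_up]
  fin_cases i <;> fin_cases j <;> simp [dg]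

theorem fdet_eq (a b : C2) : fdet ![a, Complex.I • a, b, Complex.I • b] =
    Complex.normSq (!![a 0, b 0; a 1, b 1] : Matrix (Fin 2) (Fin 2) ℂ).det := by
  have e : (Matrix.of fun i j => co ((![a, Complex.I • a, b, Complex.I • b] : Fin 4 → C2) i) j) =
      !![(a 0).re, (a 0).im, (a 1).re, (a 1).im; -(a 0).im, (a 0).re, -(a 1).im, (a 1).re;
        (b 0).re, (b 0).im, (b 1).re, (b 1).im; -(b 0).im, (b 0).re, -(b 1).im, (b 1).re] := by
    ext i j
    fin_cases i <;> fin_cases j <;> simp [co]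
  rw [fdet, e, Matrix.det_fin_two, Matrix.det_succ_row_zero]
  simp [Fin.sum_univ_succ, Matrix.det_fin_three, Fin.succAbove, Complex.normSq_apply]
  ring

end Vale.Agent.P267Y
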