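import Vale.Agent.P267Y.Defs2

/-! Matrix algebra. -/

open scoped Manifold ContDiff Topology ComplexConjugate
open Filter Metric Set Matrix MeasureTheory

noncomputable section

namespace Vale.Agent.P267Y

open Vale.Agent.P267 Vale.Agent.P267I

set_option linter.unusedSectionVars false

variable {A E : Matrix (Fin 2) (Fin 2) ℂ}

theorem lam_mul (A E : Matrix (Fin 2) (Fin 2) ℂ) : lam (A * E) = lam E * lam A := by
  ext i j
  fin_cases i <;> fin_cases j <;>
    simp [lam, Matrix.mul_apply, Fin.sum_univ_succ, Matrix.det_fin_two] <;> ring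

theorem lam_one : lam 1 = 1 := by
  ext i j
  fin_cases i <;> fin_cases j <;> simp [lam]

theorem lam_unit (h : A.det ≠ 0) : IsUnit (lam A).det := by
  have h1 : lam A * lam A⁻¹ = 1 := by
    rw [← lam_mul, Matrix.nonsing_inv_mul _ (isUnit_iff_ne_zero.2 h), lam_one]
  exact Matrix.isUnit_det_of_right_inverse h1

theorem lam_nn (E : Matrix (Fin 2) (Fin 2) ℂ) (k : Fin 2) :
    lam E * nn k = ∑ j, conj (E k j) • (nn j * lam E) := by
  ext i j
  fin_cases k <;> fin_cases i <;> fin_cases j <;>
    simp [lam, nn, Matrix.mul_apply, Fin.sum_univ_succ, Matrix.det_fin_two] <;> ring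

theorem lam_pr (A : Matrix (Fin 2) (Fin 2) ℂ) (k : ℕ) : lam A * pr k = pr k * lam A := by
  ext i j
  rw [pr, Matrix.mul_diagonal, Matrix.diagonal_mul]
  by_cases h : dg i = dg j
  · rw [h, mul_comm]
  · have h0 : lam A i j = 0 := by
      fin_cases i <;> fin_cases j <;> first | exact absurd rfl h | rfl
    rw [h0, zero_mul, mul_zero]

theorem jm_apply (L : C2 →L[ℂ] C2) (v : C2) : L v = jm L *ᵥ v := by
  have h : v = v 0 • ee 0 + v 1 • ee 1 := by
    funext i
    fin_cases i <;> simp [ee]
  funext i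
  conv_lhs => rw [h]
  simp [jm, Matrix.mulVec, dotProduct, Fin.sum_univ_succ, mul_comm]

theorem jm_comp (L L' : C2 →L[ℂ] C2) : jm (L.comp L') = jm L * jm L' := by
  ext i j
  change L (L' (ee j)) i = _
  rw [jm_apply L]
  rfl

theorem jm_id : jm (ContinuousLinearMap.id ℂ C2) = 1 := by
  ext i j
  fin_cases i <;> fin_cases j <;> simp [jm, ee]

theorem jm_det (L : C2 →L[ℂ] C2) : (jm L).det = L.det := by
  have h : jm L = LinearMap.toMatrix' (L : C2 →ₗ[ℂ] C2) := by
    ext i j
    simp [jm, ee]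
  rw [h, LinearMap.det_toMatrix']

end Vale.Agent.P267Y
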