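import Vale.Agent.P267Y.JA

/-! The flat operator. Tools: P267S/Cal.lean (`dbar_add'`, `dbar_mul'`, `dbar_sum'`, `dbar_sm_apply`, `dbar_dbar`), `dbar_smul`, `ac_congr`, `differentiableAt_pi`, `contDiffAt_pi`. -/

open scoped Manifold ContDiff Topology ComplexConjugate
open Filter Metric Set Matrix MeasureTheory

noncomputable section

namespace Vale.Agent.P267Y

open Vale.Agent.P267 Vale.Agent.P267I

set_option linter.unusedSectionVars false

variable {ψ φ : C2 → C4} {z : C2}

theorem dbF_apply (ψ : C2 → C4) (z : C2) : dbF ψ z = ![0, dbar (fun y => ψ y 0) z (ee 0),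
    dbar (fun y => ψ y 0) z (ee 1),
    dbar (fun y => ψ y 2) z (ee 0) - dbar (fun y => ψ y 1) z (ee 1)] := by
  ext i
  fin_cases i <;> simp [dbF, nn, Fin.sum_univ_succ, mulVec, dotProduct, sub_eq_add_neg]

theorem dbF_congr (e : ψ =ᶠ[𝓝 z] φ) : dbF ψ z = dbF φ z := by
  have h : ∀ i, dbar (fun y => ψ y i) z = dbar (fun y => φ y i) z := fun i =>
    ac_congr (e.mono fun y hy => congrFun hy i)
  simp only [dbF, h]

theorem dbF_add (h : DifferentiableAt ℝ ψ z) (h' : DifferentiableAt ℝ φ z) :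
    dbF (ψ + φ) z = dbF ψ z + dbF φ z := by
  have e : ∀ i, dbar (fun y => (ψ + φ) y i) z =
      dbar (fun y => ψ y i) z + dbar (fun y => φ y i) z := fun i =>
    dbar_add' (differentiableAt_pi.1 h i) (differentiableAt_pi.1 h' i)
  simp only [dbF, e, ← Finset.sum_add_distrib, ← mulVec_add]
  rfl

theorem dbF_smul (c : ℂ) (h : DifferentiableAt ℝ ψ z) : dbF (c • ψ) z = c • dbF ψ z := by
  have e : ∀ i, dbar (fun y => (c • ψ) y i) z = c • dbar (fun y => ψ y i) z := fun i => by
    have h1 := dbar_mul' (F := fun _ => c) (differentiableAt_const c) (differentiableAt_pi.1 h i)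
    rw [dbar_hol' (F := fun _ => c) (differentiableAt_const c)] at h1
    refine Eq.trans h1 ?_
    ext1 v
    simp
  simp only [dbF, e, Finset.smul_sum, ← mulVec_smul]
  rfl

theorem dbF_sm (h : ContDiffAt ℝ ∞ ψ z) : ContDiffAt ℝ ∞ (dbF ψ) z := by
  have e : ∀ i k, ContDiffAt ℝ ∞ (fun w => dbar (fun y => ψ y i) w (ee k)) z := fun i k =>
    dbar_sm_apply (contDiffAt_pi.1 h i) _
  refine contDiffAt_pi.2 fun i => ?_
  simp only [dbF_apply]
  fin_cases i
  · exact contDiffAt_const
  · exact e 0 0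
  · exact e 0 1
  · exact (e 2 0).sub (e 1 1)

theorem dbF_dbF (h : ContDiffAt ℝ ∞ ψ z) : dbF (dbF ψ) z = 0 := by
  have e0 : dbar (fun y => dbF ψ y 0) z = 0 := by
    simp only [dbF_apply]
    exact dbar_hol' (F := fun _ => 0) (differentiableAt_const 0)
  have e1 : (fun y => dbF ψ y 1) = fun y => dbar (fun y => ψ y 0) y (ee 0) := by
    simp only [dbF_apply]
    rfl
  have e2 : (fun y => dbF ψ y 2) = fun y => dbar (fun y => ψ y 0) y (ee 1) := by
    simp only [dbF_apply]
    rfl
  rw [dbF_apply, e0, e1, e2, dbar_dbar (contDiffAt_pi.1 h 0), sub_self]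
  ext i
  fin_cases i <;> rfl

theorem dbF_mul {M : C2 → Mat 4} (hM : ∀ i j, DifferentiableAt ℝ (fun y => M y i j) z)
    (h : DifferentiableAt ℝ ψ z) : dbF (fun y => M y *ᵥ ψ y) z =
      (∑ k : Fin 2, (nn k * M z) *ᵥ fun i => dbar (fun y => ψ y i) z (ee k)) +
        (∑ k : Fin 2, nn k * dbM M z k) *ᵥ ψ z := by
  have e : ∀ k : Fin 2, (fun i => dbar (fun y => (M y *ᵥ ψ y) i) z (ee k)) =
      M z *ᵥ (fun i => dbar (fun y => ψ y i) z (ee k)) + dbM M z k *ᵥ ψ z := by
    intro k
    funext i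
    have e1 : (fun y => (M y *ᵥ ψ y) i) = ∑ j, (fun y => M y i j) * fun y => ψ y j := by
      funext y
      simp only [mulVec, dotProduct, Finset.sum_apply, Pi.mul_apply]
    rw [e1, dbar_sum' fun j _ => (hM i j).mul (differentiableAt_pi.1 h j)]
    simp only [_root_.sum_apply, Pi.add_apply, mulVec, dotProduct, dbM, of_apply,
      ← Finset.sum_add_distrib]
    refine Finset.sum_congr rfl fun j _ => ?_
    rw [dbar_mul' (hM i j) (differentiableAt_pi.1 h j)]
    simp only [_root_.add_apply, _root_.smul_apply, smul_eq_mul]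
    ring
  simp only [dbF, e, mulVec_add, mulVec_mulVec, Finset.sum_add_distrib, sum_mulVec]

theorem dbar_vec (f : C2 → ℂ) (z v : C2) :
    dbar f z v = ∑ k : Fin 2, conj (v k) * dbar f z (ee k) := by
  have e : v = ∑ k : Fin 2, v k • ee k := by
    ext i
    fin_cases i <;> simp [Fin.sum_univ_succ]
  conv_lhs => rw [e]
  simp only [map_sum, dbar_smul]

end Vale.Agent.P267Y
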