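import Vale.Agent.P267Y.JB

/-! Covariance. Use `dbF_mul` with `M y = h y • lam (jm (fderiv ℂ τ y))`, `dbar_comp`, `dbar_vec`, `lam_nn`. The order zero term vanishes: `dbar` of a holomorphic function is zero (`dbar_hol'`), `dbar (conj ∘ f) z v = conj (fderiv ℂ f z v)` for holomorphic `f`, and second derivatives are symmetric (`ContDiffAt.isSymmSndFDerivAt`). -/

open scoped Manifold ContDiff Topology ComplexConjugate
open Filter Metric Set Matrix MeasureTheory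

noncomputable section

namespace Vale.Agent.P267Y

open Vale.Agent.P267 Vale.Agent.P267I

set_option linter.unusedSectionVars false

theorem JC_conj {f : C2 → ℂ} {z : C2} (hf : DifferentiableAt ℂ f z) (v : C2) :
    dbar (fun y => conj (f y)) z v = conj (fderiv ℂ f z v) := by
  have h : HasFDerivAt (fun y => conj (f y)) ((Complex.conjCLE : ℂ →L[ℝ] ℂ).comp
      ((fderiv ℂ f z).restrictScalars ℝ)) z :=
    (Complex.conjCLE : ℂ →L[ℝ] ℂ).hasFDerivAt.comp z (hf.hasFDerivAt.restrictScalars ℝ)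
  rw [ac_app, h.fderiv]
  simp only [ContinuousLinearMap.comp_apply, ContinuousLinearMap.coe_restrictScalars', map_smul,
    smul_eq_mul, ContinuousLinearEquiv.coe_coe, Complex.conjCLE_apply, map_mul, Complex.conj_I]
  linear_combination (-2⁻¹ * conj (fderiv ℂ f z v)) * Complex.I_mul_I

theorem JC_hd {τ : C2 → C2} {z : C2} (hτ : AnalyticAt ℂ τ z) (a : C2) (k : Fin 2) :
    ∃ L : C2 →L[ℂ] ℂ, HasFDerivAt (fun y => fderiv ℂ τ y a k) L z ∧
      ∀ b, L b = fderiv ℂ (fderiv ℂ τ) z b a k :=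
  ⟨_, (((ContinuousLinearMap.proj k : C2 →L[ℂ] ℂ).comp
    (ContinuousLinearMap.apply ℂ C2 a)).hasFDerivAt.comp z
      hτ.fderiv.differentiableAt.hasFDerivAt :), fun _ => rfl⟩

theorem JC_sym {τ : C2 → C2} {z : C2} (hτ : AnalyticAt ℂ τ z) (a b : C2) (k : Fin 2) :
    dbar (fun y => conj (fderiv ℂ τ y a k)) z b = dbar (fun y => conj (fderiv ℂ τ y b k)) z a := by
  obtain ⟨L, hL, e⟩ := JC_hd hτ a k
  obtain ⟨L', hL', e'⟩ := JC_hd hτ b k
  have hs : IsSymmSndFDerivAt ℂ τ z :=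
    (hτ.contDiffAt (n := ω)).isSymmSndFDerivAt (by simp)
  rw [JC_conj hL.differentiableAt, JC_conj hL'.differentiableAt, hL.fderiv, hL'.fderiv, e, e',
    hs b a]

theorem JC_dj {τ : C2 → C2} {z : C2} (hτ : AnalyticAt ℂ τ z) (a : C2) (k : Fin 2) :
    DifferentiableAt ℝ (fun y => conj (fderiv ℂ τ y a k)) z := by
  obtain ⟨L, hL, -⟩ := JC_hd hτ a k
  exact (Complex.conjCLE : ℂ →L[ℝ] ℂ).differentiableAt.comp z
    (hL.differentiableAt.restrictScalars ℝ)

theorem JC_one {h f : C2 → ℂ} {z : C2} (hh : DifferentiableAt ℂ h z)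
    (hf : DifferentiableAt ℝ f z) (v : C2) :
    dbar (fun y => h y * f y) z v = h z * dbar f z v := by
  have e : dbar (fun y => h y * f y) z v = h z * dbar f z v + f z * dbar h z v :=
    congrArg (fun L : C2 →L[ℝ] ℂ => L v) (dbar_mul' (hh.restrictScalars ℝ) hf)
  rw [e, dbar_hol' hh, _root_.zero_apply, mul_zero, add_zero]

theorem JC_two {a b f g : C2 → ℂ} {z : C2} (ha : DifferentiableAt ℝ a z)
    (hb : DifferentiableAt ℝ b z) (hf : DifferentiableAt ℝ f z) (hg : DifferentiableAt ℝ g z)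
    (v : C2) : dbar (fun y => a y * f y + b y * g y) z v =
      a z * dbar f z v + f z * dbar a z v + (b z * dbar g z v + g z * dbar b z v) := by
  have e := dbar_add' (ha.mul hf) (hb.mul hg)
  rw [dbar_mul' ha hf, dbar_mul' hb hg] at e
  exact congrArg (fun L : C2 →L[ℝ] ℂ => L v) e

theorem dbF_cov {τ : C2 → C2} {h : C2 → ℂ} {ψ : C2 → C4} {z : C2} (hτ : AnalyticAt ℂ τ z)
    (hh : AnalyticAt ℂ h z) (hψ : DifferentiableAt ℝ ψ (τ z)) :
    dbF (fun y => h y • lam (jm (fderiv ℂ τ y)) *ᵥ ψ (τ y)) z =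
      h z • lam (jm (fderiv ℂ τ z)) *ᵥ dbF ψ (τ z) := by
  have hτd := hτ.differentiableAt
  have hhd := hh.differentiableAt
  have hψi : ∀ i, DifferentiableAt ℝ (fun y => ψ y i) (τ z) := differentiableAt_pi.1 hψ
  have hφ : ∀ i, DifferentiableAt ℝ (fun y => ψ (τ y) i) z := fun i =>
    (hψi i).comp z (hτd.restrictScalars ℝ)
  have hc : ∀ i v, dbar (fun y => ψ (τ y) i) z v =
      conj (fderiv ℂ τ z v 0) * dbar (fun y => ψ y i) (τ z) (ee 0) +
        conj (fderiv ℂ τ z v 1) * dbar (fun y => ψ y i) (τ z) (ee 1) := fun i v => by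
    have e := congrArg (fun L : C2 →L[ℝ] ℂ => L v) (dbar_comp (hψi i) hτd)
    have e' := dbar_vec (fun y => ψ y i) (τ z) (fderiv ℂ τ z v)
    rw [Fin.sum_univ_two] at e'
    exact e.trans e'
  have e0 : (fun y => (h y • lam (jm (fderiv ℂ τ y)) *ᵥ ψ (τ y)) 0) =
      fun y => h y * ψ (τ y) 0 := by
    funext y
    simp [lam, dotProduct, Fin.sum_univ_succ]
  have e1 : (fun y => (h y • lam (jm (fderiv ℂ τ y)) *ᵥ ψ (τ y)) 1) =
      fun y => h y * (conj (fderiv ℂ τ y (ee 0) 0) * ψ (τ y) 1 +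
        conj (fderiv ℂ τ y (ee 0) 1) * ψ (τ y) 2) := by
    funext y
    simp [lam, jm, dotProduct, Fin.sum_univ_succ]
  have e2 : (fun y => (h y • lam (jm (fderiv ℂ τ y)) *ᵥ ψ (τ y)) 2) =
      fun y => h y * (conj (fderiv ℂ τ y (ee 1) 0) * ψ (τ y) 1 +
        conj (fderiv ℂ τ y (ee 1) 1) * ψ (τ y) 2) := by
    funext y
    simp [lam, jm, dotProduct, Fin.sum_univ_succ]
  have d2 : ∀ a v, dbar (fun y => h y * (conj (fderiv ℂ τ y a 0) * ψ (τ y) 1 +
      conj (fderiv ℂ τ y a 1) * ψ (τ y) 2)) z v = _ := fun a v =>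
    (JC_one hhd (((JC_dj hτ a 0).mul (hφ 1)).add ((JC_dj hτ a 1).mul (hφ 2))) v).trans
      (congrArg (h z * ·) (JC_two (JC_dj hτ a 0) (JC_dj hτ a 1) (hφ 1) (hφ 2) v))
  rw [dbF_apply, dbF_apply ψ, e0, e1, e2, JC_one hhd (hφ 0), JC_one hhd (hφ 0), d2, d2,
    JC_sym hτ (ee 1) (ee 0) 0, JC_sym hτ (ee 1) (ee 0) 1]
  simp only [hc]
  funext i
  fin_cases i <;> simp [lam, jm, Matrix.det_fin_two, -mul_eq_mul_left_iff] <;> ring

end Vale.Agent.P267Y
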