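import Vale.Agent.P267Y.JC

/-! Change of chart. With `τ = chartAt q ∘ (chartAt p).symm` (analytic by `cn_an`, P267F/Canon.lean) the chain rule gives `jac p x = jac q x * jm (fderiv ℂ τ (chartAt p x))`, so `loc_tr` by `lam_mul`; `isCh_chartAt`, `IsBundle.ne`. For the converse directions use the inverse matrix or the symmetric formula with `p`, `q` exchanged. -/

open scoped Manifold ContDiff Topology ComplexConjugate
open Filter Metric Set Matrix MeasureTheory

noncomputable section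

namespace Vale.Agent.P267Y

open Vale.Agent.P267 Vale.Agent.P267I

set_option linter.unusedSectionVars false

variable {X : Type} [TopologicalSpace X] [ChartedSpace C2 X] [T2Space X] [CompactSpace X]
  [IsManifold 𝓘(ℂ, C2) ω X] {u : X → X → ℂ} {F G : X → C4} {p q x : X} {k : ℕ}

theorem JD_chain (hp : x ∈ (chartAt C2 p).source) (hq : x ∈ (chartAt C2 q).source) :
    jac p x = jac q x *
      jm (fderiv ℂ (chartAt C2 q ∘ (chartAt C2 p).symm) (chartAt C2 p x)) := by
  have hx := mem_chart_source C2 x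
  have e : (chartAt C2 q ∘ (chartAt C2 p).symm) (chartAt C2 p x) = chartAt C2 q x := by
    simp only [Function.comp_apply, (chartAt C2 p).left_inv hp]
  have h1 := (cn_an hp hq).differentiableAt
  have h2 := (cn_an hq hx).differentiableAt
  rw [← e] at h2
  have h3 : (chartAt C2 x ∘ (chartAt C2 p).symm) =ᶠ[𝓝 (chartAt C2 p x)]
      (chartAt C2 x ∘ (chartAt C2 q).symm) ∘ (chartAt C2 q ∘ (chartAt C2 p).symm) := by
    filter_upwards [((chartAt C2 p).tendsto_symm hp).eventually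
      ((chartAt C2 q).eventually_left_inverse hq)] with y hy
    simp only [Function.comp_apply] at hy ⊢
    rw [hy]
  unfold jac
  rw [h3.fderiv_eq, fderiv_comp _ h2 h1, jm_comp, e]

theorem JD_loc (hp : x ∈ (chartAt C2 p).source) (hq : x ∈ (chartAt C2 q).source)
    (h0 : u q x ≠ 0) (F : X → C4) :
    loc u F p x = (u p x / u q x) • lam (jm (fderiv ℂ (chartAt C2 q ∘ (chartAt C2 p).symm)
      (chartAt C2 p x))) *ᵥ loc u F q x := by
  unfold loc
  rw [JD_chain hp hq, lam_mul, ← mulVec_mulVec, mulVec_smul, smul_smul, div_mul_cancel₀ _ h0]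

theorem JD_key (hp : x ∈ (chartAt C2 p).source) (hq : x ∈ (chartAt C2 q).source)
    (h0 : ∀ᶠ y in 𝓝 x, u q y ≠ 0) (F : X → C4) :
    loc u F p ∘ (chartAt C2 p).symm =ᶠ[𝓝 (chartAt C2 p x)] fun y =>
      ((u p / u q) ∘ (chartAt C2 p).symm) y •
        lam (jm (fderiv ℂ (chartAt C2 q ∘ (chartAt C2 p).symm) y)) *ᵥ
          (loc u F q ∘ (chartAt C2 q).symm) ((chartAt C2 q ∘ (chartAt C2 p).symm) y) := by
  filter_upwards [(chartAt C2 p).eventually_right_inverse' hp,
    ((chartAt C2 p).tendsto_symm hp).eventually (((chartAt C2 p).open_source.eventually_mem hp).and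
      (((chartAt C2 q).open_source.eventually_mem hq).and h0))] with y h1 h2
  have h3 := JD_loc h2.1 h2.2.1 h2.2.2 F
  rw [h1] at h3
  simp only [Function.comp_apply, Pi.div_apply, (chartAt C2 q).left_inv h2.2.1]
  exact h3

theorem JD_lam {τ : C2 → C2} {z : C2} (hτ : AnalyticAt ℂ τ z) (i j : Fin 4) :
    ContDiffAt ℝ ∞ (fun y => lam (jm (fderiv ℂ τ y)) i j) z := by
  have hc : ContDiff ℝ ∞ (fun w : ℂ => conj w) := Complex.conjCLE.contDiff
  have h1 : ∀ a b, ContDiffAt ℝ ∞ (fun y => jm (fderiv ℂ τ y) a b) z := fun a b => by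
    have h := ((ContinuousLinearMap.proj a : C2 →L[ℂ] ℂ).analyticAt _).comp
      (((ContinuousLinearMap.apply ℂ C2 (ee b)).analyticAt _).comp hτ.fderiv)
    exact (h.contDiffAt (n := ∞)).restrict_scalars ℝ
  have h2 : ∀ a b, ContDiffAt ℝ ∞ (fun y => conj (jm (fderiv ℂ τ y) a b)) z := fun a b =>
    hc.contDiffAt.comp z (h1 a b)
  have h3 : ContDiffAt ℝ ∞ (fun y => conj (jm (fderiv ℂ τ y)).det) z := by
    refine hc.contDiffAt.comp z ?_
    simp only [det_fin_two]
    exact ((h1 0 0).mul (h1 1 1)).sub ((h1 0 1).mul (h1 1 0))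
  fin_cases i <;> fin_cases j <;>
    first | exact h2 _ _ | exact h3 | exact contDiffAt_const

theorem JD_cd {τ : C2 → C2} {g : C2 → ℂ} {ψ : C2 → C4} {z : C2} (hτ : AnalyticAt ℂ τ z)
    (hg : AnalyticAt ℂ g z) (hψ : ContDiffAt ℝ ∞ ψ (τ z)) :
    ContDiffAt ℝ ∞ (fun y => g y • lam (jm (fderiv ℂ τ y)) *ᵥ ψ (τ y)) z := by
  have h1 := contDiffAt_pi.1 (hψ.comp z ((hτ.contDiffAt (n := ∞)).restrict_scalars ℝ))
  refine contDiffAt_pi.2 fun i => ?_
  exact ((hg.contDiffAt (n := ∞)).restrict_scalars ℝ).mul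
    (ContDiffAt.sum (s := Finset.univ) fun j _ => (JD_lam hτ i j).mul (h1 j))

theorem JD_df {τ : C2 → C2} {g : C2 → ℂ} {ψ : C2 → C4} {z : C2} (hτ : AnalyticAt ℂ τ z)
    (hg : AnalyticAt ℂ g z) (hψ : DifferentiableAt ℝ ψ (τ z)) :
    DifferentiableAt ℝ (fun y => g y • lam (jm (fderiv ℂ τ y)) *ᵥ ψ (τ y)) z := by
  have h1 := differentiableAt_pi.1 (hψ.comp z (hτ.differentiableAt.restrictScalars ℝ))
  refine differentiableAt_pi.2 fun i => ?_
  exact (hg.differentiableAt.restrictScalars ℝ).mul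
    (DifferentiableAt.fun_sum (u := Finset.univ) fun j _ =>
      ((JD_lam hτ i j).differentiableAt (by simp)).mul (h1 j))

theorem JD_diff (hp : x ∈ (chartAt C2 p).source) (hq : x ∈ (chartAt C2 q).source)
    (h0 : ∀ᶠ y in 𝓝 x, u q y ≠ 0) (hg : HolAt (u p / u q) x)
    (h : DifferentiableAt ℝ (loc u F q ∘ (chartAt C2 q).symm) (chartAt C2 q x)) :
    DifferentiableAt ℝ (loc u F p ∘ (chartAt C2 p).symm) (chartAt C2 p x) := by
  refine (JD_df (cn_an hp hq) (((isCh_chartAt p).hol x hp _).1 hg) ?_).congr_of_eventuallyEq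
    (JD_key hp hq h0 F)
  simpa only [Function.comp_apply, (chartAt C2 p).left_inv hp] using h

theorem JD_sm (hp : x ∈ (chartAt C2 p).source) (hq : x ∈ (chartAt C2 q).source)
    (h0 : ∀ᶠ y in 𝓝 x, u q y ≠ 0) (hg : HolAt (u p / u q) x)
    (h : ∀ᶠ z in 𝓝 (chartAt C2 q x), ContDiffAt ℝ ∞ (loc u F q ∘ (chartAt C2 q).symm) z) :
    ∀ᶠ z in 𝓝 (chartAt C2 p x), ContDiffAt ℝ ∞ (loc u F p ∘ (chartAt C2 p).symm) z := by
  have e : (chartAt C2 q ∘ (chartAt C2 p).symm) (chartAt C2 p x) = chartAt C2 q x := by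
    simp only [Function.comp_apply, (chartAt C2 p).left_inv hp]
  rw [← e] at h
  filter_upwards [(cn_an hp hq).eventually_analyticAt,
    (((isCh_chartAt p).hol x hp _).1 hg).eventually_analyticAt,
    (cn_an hp hq).continuousAt.eventually h, (JD_key hp hq h0 F).eventually_nhds]
    with z h1 h2 h3 h4
  exact (JD_cd h1 h2 h3).congr_of_eventuallyEq h4

theorem JD_rev (hu : IsBundle HolAt u) (h : Gd u p q) :
    (∀ᶠ y in 𝓝 q, u p y ≠ 0) ∧ HolAt (u q / u p) q := by
  have h0 : (u p / u q) q ≠ 0 := div_ne_zero h.2.1 (hu.ne q).self_of_nhds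
  refine ⟨(h.2.2.continuousAt.eventually_ne h0).mono fun y hy e => hy ?_,
    (h.2.2.inv h0).congr (.of_eq (inv_div _ _))⟩
  simp only [Pi.div_apply, e, zero_div]

theorem gd_ev (hu : IsBundle HolAt u) (p : X) : ∀ᶠ q in 𝓝 p, Gd u p q := by
  filter_upwards [chart_source_mem_nhds C2 p, hu p] with q h1 h2
  exact ⟨h1, h2⟩

theorem gd_self (hu : IsBundle HolAt u) (p : X) : Gd u p p := by
  exact (gd_ev hu p).self_of_nhds

theorem jac_self (x : X) : jac x x = 1 := by
  have e : (chartAt C2 x ∘ (chartAt C2 x).symm) =ᶠ[𝓝 (chartAt C2 x x)] id :=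
    (chartAt C2 x).eventually_right_inverse' (mem_chart_source C2 x)
  unfold jac
  rw [e.fderiv_eq, fderiv_id, jm_id]

theorem jac_det (p q : X) : (jac p q).det = canon X p q := by
  exact jm_det _

theorem loc_self (u : X → X → ℂ) (F : X → C4) (x : X) : loc u F x x = u x x • F x := by
  unfold loc
  rw [jac_self, lam_one, one_mulVec]

theorem Gd.loc_tr (hu : IsBundle HolAt u) (h : Gd u p q) : ∀ᶠ x in 𝓝 q, ∀ F : X → C4,
    loc u F p x = (u p x / u q x) • lam (jm (fderiv ℂ (chartAt C2 q ∘ (chartAt C2 p).symm)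
      (chartAt C2 p x))) *ᵥ loc u F q x := by
  filter_upwards [(chartAt C2 p).open_source.mem_nhds h.1, chart_source_mem_nhds C2 q, hu.ne q]
    with x h1 h2 h3 F
  exact JD_loc h1 h2 h3 F

theorem Gd.sm_iff (hu : IsBundle HolAt u) (h : Gd u p q) : SmP u F q ↔
    ∀ᶠ z in 𝓝 (chartAt C2 p q), ContDiffAt ℝ ∞ (loc u F p ∘ (chartAt C2 p).symm) z := by
  have e : SmP u F q ↔
      ∀ᶠ z in 𝓝 (chartAt C2 q q), ContDiffAt ℝ ∞ (loc u F q ∘ (chartAt C2 q).symm) z :=
    eventually_all.symm.trans (eventually_congr (.of_forall fun _ => contDiffAt_pi.symm))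
  have hq := mem_chart_source C2 q
  exact e.trans ⟨JD_sm h.1 hq (hu.ne q) h.2.2, JD_sm hq h.1 (JD_rev hu h).1 (JD_rev hu h).2⟩

theorem Gd.diff_iff (hu : IsBundle HolAt u) (h : Gd u p q) :
    DifferentiableAt ℝ (loc u F q ∘ (chartAt C2 q).symm) (chartAt C2 q q) ↔
      DifferentiableAt ℝ (loc u F p ∘ (chartAt C2 p).symm) (chartAt C2 p q) := by
  have hq := mem_chart_source C2 q
  exact ⟨JD_diff h.1 hq (hu.ne q) h.2.2, JD_diff hq h.1 (JD_rev hu h).1 (JD_rev hu h).2⟩

end Vale.Agent.P267Y
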