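import Vale.Agent.P267Y.JD

/-! The global operator. `db_loc`: `loc_tr`, `dbF_congr`, `dbF_cov`, `loc_self`. The rest from `db_loc` near `p` (`gd_ev`), `dbF_sm`, `dbF_dbF`, `dbF_apply`, `Gd.sm_iff`. -/

open scoped Manifold ContDiff Topology ComplexConjugate
open Filter Metric Set Matrix MeasureTheory

noncomputable section

namespace Vale.Agent.P267Y

open Vale.Agent.P267 Vale.Agent.P267I

set_option linter.unusedSectionVars false

variable {X : Type} [TopologicalSpace X] [ChartedSpace C2 X] [T2Space X] [CompactSpace X]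
  [IsManifold 𝓘(ℂ, C2) ω X] {u : X → X → ℂ} {F G : X → C4} {p q x : X} {k : ℕ}

theorem Gd.db_loc (hu : IsBundle HolAt u) (h : Gd u p q)
    (hF : DifferentiableAt ℝ (loc u F p ∘ (chartAt C2 p).symm) (chartAt C2 p q)) :
    loc u (dbN u F) p q = dbF (loc u F p ∘ (chartAt C2 p).symm) (chartAt C2 p q) := by
  have hq := mem_chart_source C2 q
  have hτ := cn_an h.1 hq
  have hh := ((isCh_chartAt p).hol q h.1 _).1 h.2.2
  have ez : (chartAt C2 q ∘ (chartAt C2 p).symm) (chartAt C2 p q) = chartAt C2 q q := by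
    simp only [Function.comp_apply, (chartAt C2 p).left_inv h.1]
  have hψ : DifferentiableAt ℝ (loc u F q ∘ (chartAt C2 q).symm)
      ((chartAt C2 q ∘ (chartAt C2 p).symm) (chartAt C2 p q)) := by
    rw [ez]
    exact (h.diff_iff hu).2 hF
  have e : loc u F p ∘ (chartAt C2 p).symm =ᶠ[𝓝 (chartAt C2 p q)] fun y =>
      ((u p / u q) ∘ (chartAt C2 p).symm) y •
        lam (jm (fderiv ℂ (chartAt C2 q ∘ (chartAt C2 p).symm) y)) *ᵥ
          (loc u F q ∘ (chartAt C2 q).symm) ((chartAt C2 q ∘ (chartAt C2 p).symm) y) := by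
    filter_upwards [((chartAt C2 p).tendsto_symm h.1).eventually
      ((h.loc_tr hu).and ((chartAt C2 q).eventually_left_inverse hq)),
      (chartAt C2 p).eventually_right_inverse' h.1] with y h1 h2
    have h3 := h1.1 F
    rw [h2] at h3
    simp only [Function.comp_apply, Pi.div_apply] at h3 ⊢
    rw [h3, h1.2]
  rw [dbF_congr e, dbF_cov hτ hh hψ, ez]
  simp only [loc, dbN, jac, Function.comp_apply, Pi.mul_apply, Pi.inv_apply,
    (chartAt C2 p).left_inv h.1, mulVec_smul, smul_smul, div_eq_mul_inv]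

theorem SmP.ev (hu : IsBundle HolAt u) (h : SmP u F p) : ∀ᶠ q in 𝓝 p, SmP u F q := by
  have h1 := (((gd_self hu p).sm_iff hu).1 h).eventually_nhds
  filter_upwards [gd_ev hu p,
    ((chartAt C2 p).continuousAt (mem_chart_source C2 p)).eventually h1] with q a b
  exact (a.sm_iff hu).2 b

theorem SmP.congr (h : SmP u F p) (e : F =ᶠ[𝓝 p] G) : SmP u G p :=
  fun i => (h i).congr (e.mono fun q hq => by simp only [loc, hq])

theorem JD2_ev (hu : IsBundle HolAt u) (h : SmP u F p) :
    loc u (dbN u F) p ∘ (chartAt C2 p).symm =ᶠ[𝓝 (chartAt C2 p p)]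
      dbF (loc u F p ∘ (chartAt C2 p).symm) := by
  have hp := mem_chart_source C2 p
  filter_upwards [((gd_self hu p).sm_iff hu).1 h,
    ((chartAt C2 p).tendsto_symm hp).eventually (gd_ev hu p),
    (chartAt C2 p).eventually_right_inverse' hp] with z a b c
  have := b.db_loc hu (F := F) (by rw [c]; exact a.differentiableAt (by simp))
  rw [c] at this
  exact this

theorem SmP.db (hu : IsBundle HolAt u) (h : SmP u F p) : SmP u (dbN u F) p := by
  refine ((gd_self hu p).sm_iff hu).2 ?_
  filter_upwards [((gd_self hu p).sm_iff hu).1 h, (JD2_ev hu h).eventually_nhds] with z a b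
  exact (dbF_sm a).congr_of_eventuallyEq b

theorem dbN_congr (e : F =ᶠ[𝓝 p] G) : dbN u F p = dbN u G p := by
  unfold dbN
  congr 1
  refine dbF_congr ?_
  filter_upwards [((chartAt C2 p).tendsto_symm (mem_chart_source C2 p)).eventually e] with z hz
  simp only [Function.comp_apply, loc, hz]

theorem JD2_zero (h : Dg k F) (j : Fin 4) (hj : dg j ≠ k) (z v : C2) :
    dbar (fun y => (loc u F q ∘ (chartAt C2 q).symm) y j) z v = 0 := by
  have e : (fun y => (loc u F q ∘ (chartAt C2 q).symm) y j) = fun _ => 0 := by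
    funext y
    have h1 : pr k *ᵥ (lam (jac q ((chartAt C2 q).symm y)) *ᵥ F ((chartAt C2 q).symm y)) =
        lam (jac q ((chartAt C2 q).symm y)) *ᵥ F ((chartAt C2 q).symm y) := by
      rw [mulVec_mulVec, ← lam_pr, ← mulVec_mulVec, dg_iff.1 (h _)]
    simp only [Function.comp_apply, loc, Pi.smul_apply, dg_iff.2 h1 j hj, smul_zero]
  rw [e]
  simp [dbar]

theorem dbN_dg (h : Dg k F) : Dg (k + 1) (dbN u F) := by
  intro q i hi
  simp only [dbN, Pi.smul_apply, dbF_apply]
  fin_cases i
  · simp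
  · have h0 : dg 0 ≠ k := fun e => hi (by rw [← e]; rfl)
    rw [JD2_zero h 0 h0]
    simp
  · have h0 : dg 0 ≠ k := fun e => hi (by rw [← e]; rfl)
    rw [JD2_zero h 0 h0 _ (ee 1)]
    simp
  · have h1 : dg 1 ≠ k := fun e => hi (by rw [← e]; rfl)
    have h2 : dg 2 ≠ k := fun e => hi (by rw [← e]; rfl)
    rw [JD2_zero h 1 h1, JD2_zero h 2 h2]
    simp

theorem dbN_om (hu : IsBundle HolAt u) (h : F ∈ Om u k) : dbN u F ∈ Om u (k + 1) :=
  ⟨fun p => (h.1 p).db hu, dbN_dg h.2⟩

theorem JD2_diff (h : SmP u F p) :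
    DifferentiableAt ℝ (loc u F p ∘ (chartAt C2 p).symm) (chartAt C2 p p) :=
  differentiableAt_pi.2 fun i => (h i).self_of_nhds.differentiableAt (by simp)

theorem dbN_add (h : SmP u F p) (h' : SmP u G p) : dbN u (F + G) p = dbN u F p + dbN u G p := by
  have e : loc u (F + G) p ∘ (chartAt C2 p).symm =
      loc u F p ∘ (chartAt C2 p).symm + loc u G p ∘ (chartAt C2 p).symm := by
    funext z
    simp only [Function.comp_apply, loc, Pi.add_apply, mulVec_add, smul_add]
  simp only [dbN]
  rw [e, dbF_add (JD2_diff h) (JD2_diff h'), smul_add]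

theorem dbN_smul (c : ℂ) (h : SmP u F p) : dbN u (c • F) p = c • dbN u F p := by
  have e : loc u (c • F) p ∘ (chartAt C2 p).symm = c • (loc u F p ∘ (chartAt C2 p).symm) := by
    funext z
    simp only [Function.comp_apply, loc, Pi.smul_apply, mulVec_smul]
    rw [smul_comm]
  simp only [dbN]
  rw [e, dbF_smul c (JD2_diff h), smul_comm]

theorem dbN_dbN (hu : IsBundle HolAt u) (h : SmP u F p) : dbN u (dbN u F) p = 0 := by
  have h1 := (((gd_self hu p).sm_iff hu).1 h).self_of_nhds
  rw [dbN, dbF_congr (JD2_ev hu h), dbF_dbF h1, smul_zero]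

end Vale.Agent.P267Y
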