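import Vale.Agent.P267Y.JE0

/-! Local primitives and smoothing. `rel_ex`: in the chart at `p` the form `ϖ z v = conj (v 0) * a z 1 + conj (v 1) * a z 2`, `a = loc u F p ∘ symm`, is closed on a small ball (`Gd.db_loc`); apply `dol` (P267S/Dol.lean) and put `f p = (w ∘ chartAt p) / u p`. `z1_ex`: copy `exists_smooth` (P267G/G3.lean: finite atlas, partition of unity, `s = ∑ ρ b * f (c b)`) with the factor `u`; then `F x = dbN u (d0 (f x - s)) x`, and near `p` this is `dbN u (d0 (f p - s))` by `d0_hol`, `dbN_add`. -/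

open scoped Manifold ContDiff Topology ComplexConjugate
open Filter Metric Set Matrix MeasureTheory

noncomputable section

namespace Vale.Agent.P267Y

open Vale.Agent.P267 Vale.Agent.P267I

set_option linter.unusedSectionVars false

variable {X : Type} [TopologicalSpace X] [ChartedSpace C2 X] [T2Space X] [CompactSpace X]
  [IsManifold 𝓘(ℂ, C2) ω X] {u : X → X → ℂ} {F G : X → C4} {p q x : X} {k : ℕ}

variable {f : X → X → ℂ}

theorem JE2_smooth [ConnectedSpace X]
    (hf : ∀ p, ∀ᶠ q in 𝓝 p, HolAt (u q * (f p - f q)) q) :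
    ∃ s : X → ℂ, ∀ p, SmAt (u p * (f p - s)) p := by
  obtain ⟨m, Q, c, hQ, hc⟩ := exists_atf (fun p => {q | HolAt (u q * (f p - f q)) q}) hf
  obtain ⟨ρ, hρ, -⟩ := hQ.exact
  refine ⟨fun q => ∑ b, ρ b q * f (c b) q, fun p => ?_⟩
  have e : (u p * (f p - fun q => ∑ b, ρ b q * f (c b) q)) =
      -∑ b, (fun q => (ρ b q : ℂ)) * (u p * (f (c b) - f p)) := by
    funext q
    have h1 : ∑ b, (ρ b q : ℂ) = 1 := by exact_mod_cast hρ.sum q
    have h2 : ∀ b, (ρ b q : ℂ) * (u p q * (f (c b) q - f p q)) =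
        u p q * (ρ b q * f (c b) q) - ρ b q * (u p q * f p q) := fun b => by ring
    simp only [Pi.sub_apply, Pi.neg_apply, Finset.sum_apply, Pi.mul_apply, h2,
      Finset.sum_sub_distrib, ← Finset.sum_mul, ← Finset.mul_sum, h1]
    ring
  rw [e]
  refine (SmAt.sum fun b _ => ?_).neg
  by_cases hp : p ∈ tsupport (ρ b)
  · exact (hQ.smAt (hρ.sm b) p).mul (HolAt.smAt (hc b (hρ.supp b hp)))
  · refine smAt_zero.congr ?_
    filter_upwards [notMem_tsupport_iff_eventuallyEq.1 hp] with q hq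
    simp [hq]

theorem JE2_add (s s' : X → ℂ) : d0 (s + s') = d0 s + d0 s' := by
  funext x
  simp only [d0, Pi.add_apply, Pi.single_add]

theorem z1_ex [ConnectedSpace X] (hu : IsBundle HolAt u) (h : f ∈ Z1 id u) :
    ∃ (s : X → ℂ) (F : X → C4), F ∈ Om u 1 ∧ dbN u F = 0 ∧ Rel u F fun p => f p - s := by
  have hf := z1_mem.1 h
  obtain ⟨s, hs⟩ := JE2_smooth hf
  have hr : ∀ p, ∀ᶠ q in 𝓝 p, dbN u (d0 (f p - s)) q = dbN u (d0 (f q - s)) q := fun p => by
    filter_upwards [hf p] with q hq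
    have h1 : dbN u (d0 (f p - f q)) q = 0 := ((d0_hol hu hq.smAt).1 hq).self_of_nhds
    rw [← sub_add_sub_cancel (f p) (f q) s, JE2_add,
      dbN_add (d0_sm.2 hq.smAt) (d0_sm.2 (hs q)), h1, zero_add]
  refine ⟨s, fun x => dbN u (d0 (f x - s)) x,
    ⟨fun p => (SmP.db hu (d0_sm.2 (hs p))).congr (hr p), fun q i hi => dbN_dg d0_dg q i hi⟩, ?_,
    fun p => ⟨hs p, hr p⟩⟩
  funext p
  exact (dbN_congr (hr p)).symm.trans (dbN_dbN hu (d0_sm.2 (hs p)))

end Vale.Agent.P267Y
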