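import Vale.Agent.P267Y.JE1
import Vale.Agent.P267Y.JE2

/-! The Dolbeault isomorphism. Let `W` be the submodule of pairs `(H, f) : Hm × Z1 id u` with `Rel u H f`. The projection to `Hm` is onto (`rel_ex`, `Rel.z1`), the map to `H1 id u` is onto (`z1_ex`, `h3`: `f - s - G` is related to `H`), and both have the kernel `H = 0` (`d0_hol`, `b1_mem`, `h4`). `LinearMap.quotKerEquivOfSurjective`, `Submodule.quotEquivOfEq`. -/

open scoped Manifold ContDiff Topology ComplexConjugate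
open Filter Metric Set Matrix MeasureTheory

noncomputable section

namespace Vale.Agent.P267Y

open Vale.Agent.P267 Vale.Agent.P267I

set_option linter.unusedSectionVars false

variable {X : Type} [TopologicalSpace X] [ChartedSpace C2 X] [T2Space X] [CompactSpace X]
  [IsManifold 𝓘(ℂ, C2) ω X] {u : X → X → ℂ} {F G : X → C4} {p q x : X} {k : ℕ}

theorem JE_d0_add (s t : X → ℂ) : d0 (s + t) = d0 s + d0 t :=
  funext fun x => Pi.single_add (f := fun _ : Fin 4 => ℂ) 0 (s x) (t x)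

theorem JE_d0_smul (c : ℂ) (s : X → ℂ) : d0 (c • s) = c • d0 s :=
  funext fun x => Pi.single_smul (f := fun _ : Fin 4 => ℂ) 0 c (s x)

theorem JE_add (hu : IsBundle HolAt u) {f g : X → X → ℂ} (hf : Rel u F f) (hg : Rel u G g) :
    Rel u (F + G) (f + g) := by
  intro p
  refine ⟨((hf p).1.add (hg p).1).congr (.of_forall fun q => (mul_add _ _ _).symm), ?_⟩
  filter_upwards [(hf p).2, (hg p).2, (d0_sm.2 (hf p).1).ev hu, (d0_sm.2 (hg p).1).ev hu]
    with q e1 e2 e3 e4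
  rw [Pi.add_apply, JE_d0_add, dbN_add e3 e4, e1, e2, Pi.add_apply]

theorem JE_smul (hu : IsBundle HolAt u) (c : ℂ) {f : X → X → ℂ} (hf : Rel u F f) :
    Rel u (c • F) (c • f) := by
  intro p
  refine ⟨((hf p).1.smul c).congr (.of_forall fun q => mul_left_comm _ _ _), ?_⟩
  filter_upwards [(hf p).2, (d0_sm.2 (hf p).1).ev hu] with q e1 e3
  rw [Pi.smul_apply, JE_d0_smul, dbN_smul c e3, e1, Pi.smul_apply]

theorem JE_const (h : G ∈ Om u 0) : Rel u (dbN u G) fun _ x => G x 0 := by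
  intro p
  have e := d0_of h.2
  refine ⟨d0_sm.1 (e ▸ h.1 p), .of_forall fun q => ?_⟩
  rw [← e]

theorem JE_zero (hu : IsBundle HolAt u) : Rel u 0 0 := by
  have h := JE_smul hu 0 (JE_const (u := u) (Om u 0).zero_mem)
  rwa [zero_smul, zero_smul] at h

theorem JE_lin {W A B : Type} [AddCommGroup W] [AddCommGroup A] [AddCommGroup B] [Module ℂ W]
    [Module ℂ A] [Module ℂ B] (a : W →ₗ[ℂ] A) (b : W →ₗ[ℂ] B) (ha : Function.Surjective a)
    (hb : Function.Surjective b) (hk : LinearMap.ker a = LinearMap.ker b) : Nonempty (A ≃ₗ[ℂ] B) :=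
  ⟨(a.quotKerEquivOfSurjective ha).symm.trans
    ((Submodule.quotEquivOfEq _ _ hk).trans (b.quotKerEquivOfSurjective hb))⟩

/-- Pairs of a form and a cocycle of local primitives. -/
def JE_W (hu : IsBundle HolAt u) (Hm : Submodule ℂ (X → C4)) : Submodule ℂ (Hm × Z1 id u) where
  carrier := {x | Rel u x.1.1 x.2.1}
  add_mem' := fun ha hb => JE_add hu ha hb
  zero_mem' := JE_zero hu
  smul_mem' := fun c _ ha => JE_smul hu c ha

theorem dolb_iso [ConnectedSpace X] (hu : IsBundle HolAt u) {Hm : Submodule ℂ (X → C4)}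
    [FiniteDimensional ℂ Hm] (h1 : Hm ≤ Om u 1) (h2 : ∀ F ∈ Hm, dbN u F = 0)
    (h3 : ∀ F ∈ Om u 1, dbN u F = 0 → ∃ H ∈ Hm, ∃ G ∈ Om u 0, F = H + dbN u G)
    (h4 : ∀ G ∈ Om u 0, dbN u G ∈ Hm → dbN u G = 0) :
    FiniteDimensional ℂ (H1 id u) ∧ Module.finrank ℂ (H1 id u) = Module.finrank ℂ Hm := by
  let a : JE_W hu Hm →ₗ[ℂ] Hm := LinearMap.fst ℂ _ _ ∘ₗ (JE_W hu Hm).subtype
  let b : JE_W hu Hm →ₗ[ℂ] H1 id u :=
    ((B1 id u).submoduleOf (Z1 id u)).mkQ ∘ₗ LinearMap.snd ℂ _ _ ∘ₗ (JE_W hu Hm).subtype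
  have ha : Function.Surjective a := by
    intro H
    obtain ⟨f, hf⟩ := rel_ex hu (h1 H.2) (h2 _ H.2)
    exact ⟨⟨(H, ⟨f, hf.z1 hu⟩), hf⟩, rfl⟩
  have hb : Function.Surjective b := by
    intro y
    obtain ⟨f, rfl⟩ := Submodule.Quotient.mk_surjective _ y
    obtain ⟨s, F, hF, hF0, hR⟩ := z1_ex hu f.2
    obtain ⟨H, hH, G, hG, e⟩ := h3 F hF hF0
    have h5 := JE_add hu hR (JE_smul hu (-1) (JE_const hG))
    have e2 : F + (-1 : ℂ) • dbN u G = H := by rw [e, neg_one_smul, add_neg_cancel_right]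
    rw [e2] at h5
    refine ⟨⟨(⟨H, hH⟩, ⟨_, h5.z1 hu⟩), h5⟩, (Submodule.Quotient.eq _).2 ?_⟩
    refine b1_mem.2 ⟨-s - fun x => G x 0, fun p => (holAt_const (c := 0)).congr (.of_forall fun q => ?_)⟩
    simp
    ring_nf
    simp
  have hk : LinearMap.ker b = LinearMap.ker a := by
    ext ⟨⟨H, f⟩, hR⟩
    have hR' : Rel u H.1 f.1 := hR
    have e1 : (⟨(H, f), hR⟩ : JE_W hu Hm) ∈ LinearMap.ker b ↔ f.1 ∈ B1 id u :=
      Submodule.Quotient.mk_eq_zero _
    have e2 : (⟨(H, f), hR⟩ : JE_W hu Hm) ∈ LinearMap.ker a ↔ H.1 = 0 := Subtype.ext_iff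
    rw [e1, e2, b1_mem]
    constructor
    · rintro ⟨s, hs⟩
      have h5 : ∀ p, SmAt (u p * s) p := fun p =>
        ((hR' p).1.sub (hs p).smAt).congr (.of_forall fun q => by simp [mul_sub])
      have h6 : d0 s ∈ Om u 0 := ⟨fun p => d0_sm.2 (h5 p), d0_dg⟩
      have h7 : dbN u (d0 s) = H.1 := by
        funext p
        have e3 := ((d0_hol hu (hs p).smAt).1 (hs p)).self_of_nhds
        rw [← (hR' p).2.self_of_nhds, ← sub_add_cancel (f.1 p) s, JE_d0_add,
          dbN_add (d0_sm.2 (hs p).smAt) (d0_sm.2 (h5 p)), e3, zero_add]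
      rw [← h7]
      exact h4 _ h6 (h7 ▸ H.2)
    · intro h
      refine ⟨0, fun p => ?_⟩
      rw [sub_zero]
      refine (d0_hol hu (hR' p).1).2 ?_
      filter_upwards [(hR' p).2] with q hq
      rw [hq, h, Pi.zero_apply]
  obtain ⟨e⟩ := JE_lin (W := JE_W hu Hm) (A := H1 id u) (B := Hm) b a hb ha hk
  exact ⟨e.symm.finiteDimensional, e.finrank_eq⟩

end Vale.Agent.P267Y
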