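import Vale.Agent.P267Y.JD2

/-! Sections as forms of degree zero. `loc u (d0 s) p q = Pi.single 0 (u p q * s q)`; `analyticAt_of_dbar`, `dbar_hol'`, `dbar_vec`, `Gd.db_loc`, `lam_unit`, `IsBundle.hol_iff`, `IsBundle.sm_iff`. `h0_rank`: `d0` is an injective linear map and `K = (H0 id u).map`; elements of the span `H0` are holomorphic sections (`Submodule.span_induction`). -/

open scoped Manifold ContDiff Topology ComplexConjugate
open Filter Metric Set Matrix MeasureTheory

noncomputable section

namespace Vale.Agent.P267Y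

open Vale.Agent.P267 Vale.Agent.P267I

set_option linter.unusedSectionVars false

variable {X : Type} [TopologicalSpace X] [ChartedSpace C2 X] [T2Space X] [CompactSpace X]
  [IsManifold 𝓘(ℂ, C2) ω X] {u : X → X → ℂ} {F G : X → C4} {p q x : X} {k : ℕ}

/-- A section as a form of degree zero. -/
def d0 (s : X → ℂ) (x : X) : C4 := Pi.single 0 (s x)

/-- `f p` is a local primitive of `F` near `p`. -/
def Rel (u : X → X → ℂ) (F : X → C4) (f : X → X → ℂ) : Prop :=
  ∀ p, SmAt (u p * f p) p ∧ ∀ᶠ q in 𝓝 p, dbN u (d0 (f p)) q = F q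

variable {s : X → ℂ} {f : X → X → ℂ}

theorem JE0_loc (u : X → X → ℂ) (s : X → ℂ) (p q : X) :
    loc u (d0 s) p q = Pi.single 0 (u p q * s q) := by
  ext i
  fin_cases i <;> simp [loc, d0, lam]

theorem JE0_ev (hf : HolAt s p) : ∀ᶠ q in 𝓝 p, HolAt s q := by
  have hp := mem_chart_source C2 p
  filter_upwards [((chartAt C2 p).continuousAt hp).eventually (AnalyticAt.eventually_analyticAt hf),
    (chartAt C2 p).open_source.mem_nhds hp] with q h1 h2 using ((isCh_chartAt p).hol q h2 s).2 h1

theorem JE0_dbF (g : C2 → ℂ) (z : C2) :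
    dbF (fun y => (Pi.single 0 (g y) : C4)) z = 0 ↔ dbar g z = 0 := by
  have h0 : dbar (fun _ => (0 : ℂ)) z = 0 := dbar_hol' (differentiableAt_const _)
  have e : dbF (fun y => (Pi.single 0 (g y) : C4)) z =
      ![0, dbar g z (ee 0), dbar g z (ee 1), 0] := by
    rw [dbF_apply]
    simp [h0]
  rw [e]
  constructor
  · intro h
    have h1 : dbar g z (ee 0) = 0 := congrFun h 1
    have h2 : dbar g z (ee 1) = 0 := congrFun h 2
    ext1 v
    rw [dbar_vec, Fin.sum_univ_two, h1, h2]
    simp
  · intro h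
    rw [h]
    ext i
    fin_cases i <;> simp

theorem JE0_comp (u : X → X → ℂ) (s : X → ℂ) (p : X) : loc u (d0 s) p ∘ (chartAt C2 p).symm =
    fun y => (Pi.single 0 (((u p * s) ∘ (chartAt C2 p).symm) y) : C4) :=
  funext fun _ => JE0_loc _ _ _ _

theorem d0_sm : SmP u (d0 s) p ↔ SmAt (u p * s) p := by
  constructor
  · intro h
    exact (h 0).congr (.of_forall fun q => by simp [JE0_loc])
  · intro h i
    by_cases hi : i = 0
    · subst hi
      exact h.congr (.of_forall fun q => by simp [JE0_loc])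
    · exact smAt_zero.congr (.of_forall fun q => by simp [JE0_loc, hi])

theorem d0_dg : Dg 0 (d0 s) := by
  intro q i h
  have hi : i ≠ 0 := fun e => h (by rw [e]; rfl)
  simp [d0, hi]

theorem d0_of (h : Dg 0 F) : F = d0 fun x => F x 0 := by
  funext x i
  by_cases hi : i = 0
  · simp [d0, hi]
  · rw [h x i (by fin_cases i <;> simp_all [dg])]
    simp [d0, hi]

theorem d0_hol (hu : IsBundle HolAt u) (h : SmAt (u p * s) p) :
    HolAt (u p * s) p ↔ ∀ᶠ q in 𝓝 p, dbN u (d0 s) q = 0 := by
  have hp := mem_chart_source C2 p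
  constructor
  · intro hh
    filter_upwards [JE0_ev hh, hu.hol_iff p] with q h1 h2
    have h3 : HolAt (u q * s) q := (h2 s).2 h1
    unfold dbN
    rw [JE0_comp, (JE0_dbF _ _).2 (dbar_hol' (AnalyticAt.differentiableAt h3)), smul_zero]
  · intro hh
    refine analyticAt_of_dbar h ?_
    filter_upwards [h, ((chartAt C2 p).tendsto_symm hp).eventually (hh.and (gd_ev hu p)),
      (chartAt C2 p).open_target.mem_nhds ((chartAt C2 p).map_source hp)] with w h1 h2 h3
    have e := (chartAt C2 p).right_inv h3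
    have h4 := h2.2.db_loc hu (F := d0 s) (by
      rw [e, JE0_comp]
      refine differentiableAt_pi.2 fun i => ?_
      by_cases hi : i = 0
      · subst hi
        simpa only [Pi.single_eq_same] using h1.differentiableAt (by simp)
      · simp only [Pi.single_eq_of_ne hi]
        exact differentiableAt_const _)
    rw [e, JE0_comp] at h4
    refine (JE0_dbF _ _).1 ?_
    rw [← h4]
    unfold loc
    rw [h2.1, mulVec_zero, smul_zero]

theorem h0_mem : s ∈ H0 id u ↔ ∀ p, HolAt (u p * s) p := by
  refine ⟨fun h => ?_, fun h => Submodule.subset_span ⟨rfl, h⟩⟩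
  induction h using Submodule.span_induction with
  | mem x hx => exact hx.2
  | zero => intro p; rw [mul_zero]; exact holAt_zero
  | add a b _ _ ha hb => intro p; rw [mul_add]; exact (ha p).add (hb p)
  | smul c a _ ha => intro p; rw [mul_smul_comm]; exact (ha p).smul c

theorem z1_mem : f ∈ Z1 id u ↔ ∀ p, ∀ᶠ q in 𝓝 p, HolAt (u q * (f p - f q)) q := by
  refine ⟨fun h => ?_, fun h => Submodule.subset_span ⟨rfl, h⟩⟩
  induction h using Submodule.span_induction with
  | mem x hx => exact hx.2
  | zero =>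
    refine fun p => .of_forall fun q => ?_
    simp only [Pi.zero_apply, sub_self, mul_zero]
    exact holAt_zero
  | add a b _ _ ha hb =>
    intro p
    filter_upwards [ha p, hb p] with q h1 h2
    refine (h1.add h2).congr (.of_forall fun y => ?_)
    simp only [Pi.add_apply, Pi.mul_apply, Pi.sub_apply]
    ring
  | smul c a _ ha =>
    intro p
    filter_upwards [ha p] with q h1
    refine (h1.smul c).congr (.of_forall fun y => ?_)
    simp only [Pi.smul_apply, Pi.mul_apply, Pi.sub_apply, smul_eq_mul]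
    ring

theorem b1_mem : f ∈ B1 id u ↔ ∃ s : X → ℂ, ∀ p, HolAt (u p * (f p - s)) p := by
  refine ⟨fun h => ?_, fun ⟨s, h⟩ => Submodule.subset_span ⟨s, rfl, h⟩⟩
  induction h using Submodule.span_induction with
  | mem x hx =>
    obtain ⟨s, -, h⟩ := hx
    exact ⟨s, h⟩
  | zero =>
    refine ⟨0, fun p => ?_⟩
    simp only [Pi.zero_apply, sub_self, mul_zero]
    exact holAt_zero
  | add a b _ _ ha hb =>
    obtain ⟨s, h1⟩ := ha
    obtain ⟨t, h2⟩ := hb
    refine ⟨s + t, fun p => ((h1 p).add (h2 p)).congr (.of_forall fun y => ?_)⟩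
    simp only [Pi.add_apply, Pi.mul_apply, Pi.sub_apply]
    ring
  | smul c a _ ha =>
    obtain ⟨s, h1⟩ := ha
    refine ⟨c • s, fun p => ((h1 p).smul c).congr (.of_forall fun y => ?_)⟩
    simp only [Pi.smul_apply, Pi.mul_apply, Pi.sub_apply, smul_eq_mul]
    ring

theorem JE0_add (a b : X → ℂ) : d0 (a + b) = d0 a + d0 b := by
  funext x
  simp [d0, Pi.single_add]

variable (X) in
/-- The inclusion of sections as a linear map. -/
def JE0_L : (X → ℂ) →ₗ[ℂ] (X → C4) where
  toFun := d0
  map_add' := JE0_add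
  map_smul' c a := by
    funext x i
    by_cases hi : i = 0 <;> simp [d0, hi]

theorem h0_rank (hu : IsBundle HolAt u) {K : Submodule ℂ (X → C4)}
    (hK : ∀ F, F ∈ K ↔ F ∈ Om u 0 ∧ dbN u F = 0) :
    Module.finrank ℂ K = Module.finrank ℂ (H0 id u) := by
  have hi : Function.Injective (JE0_L X) := fun a b e => funext fun x => by
    have := congrFun (congrFun e x) 0
    simpa [JE0_L, d0] using this
  have e : K = (H0 id u).map (JE0_L X) := by
    ext F
    rw [hK, Submodule.mem_map]
    constructor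
    · rintro ⟨h1, h2⟩
      have h3 := d0_of h1.2
      refine ⟨fun x => F x 0, h0_mem.2 fun p => ?_, h3.symm⟩
      have h4 := h1.1 p
      rw [h3] at h4 h2
      exact (d0_hol hu (d0_sm.1 h4)).2 (.of_forall fun q => congrFun h2 q)
    · rintro ⟨s, h1, rfl⟩
      have h2 := h0_mem.1 h1
      exact ⟨⟨fun p => d0_sm.2 (h2 p).smAt, d0_dg⟩,
        funext fun p => ((d0_hol hu (h2 p).smAt).1 (h2 p)).self_of_nhds⟩
  rw [e]
  exact (Submodule.equivMapOfInjective _ hi _).finrank_eq.symm

theorem Rel.z1 (hu : IsBundle HolAt u) (h : Rel u F f) : f ∈ Z1 id u := by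
  refine z1_mem.2 fun p => ?_
  filter_upwards [(d0_sm.2 (h p).1).ev hu, (h p).2.eventually_nhds] with q h1 h2
  have h3 : SmAt (u q * (f p - f q)) q := by
    rw [mul_sub]
    exact (d0_sm.1 h1).sub (h q).1
  refine (d0_hol hu h3).2 ?_
  filter_upwards [h2, (h q).2, (d0_sm.2 h3).ev hu, (d0_sm.2 (h q).1).ev hu] with x a1 a2 a3 a4
  have a5 := dbN_add a3 a4
  rw [← JE0_add, sub_add_cancel, a1, a2] at a5
  exact right_eq_add.1 a5

end Vale.Agent.P267Y
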