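import Vale.Agent.P267Y.JE0

/-! Local primitives and smoothing. `rel_ex`: in the chart at `p` the form `ϖ z v = conj (v 0) * a z 1 + conj (v 1) * a z 2`, `a = loc u F p ∘ symm`, is closed on a small ball (`Gd.db_loc`); apply `dol` (P267S/Dol.lean) and put `f p = (w ∘ chartAt p) / u p`. `z1_ex`: copy `exists_smooth` (P267G/G3.lean: finite atlas, partition of unity, `s = ∑ ρ b * f (c b)`) with the factor `u`; then `F x = dbN u (d0 (f x - s)) x`, and near `p` this is `dbN u (d0 (f p - s))` by `d0_hol`, `dbN_add`. -/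

open scoped Manifold ContDiff Topology ComplexConjugate
open Filter Metric Set Matrix MeasureTheory

noncomputable section

namespace Vale.Agent.P267Y

open Vale.Agent.P267 Vale.Agent.P267I

set_option linter.unusedSectionVars false

variable {X : Type} [TopologicalSpace X] [ChartedSpace C2 X] [T2Space X] [CompactSpace X]
  [IsManifold 𝓘(ℂ, C2) ω X] {u : X → X → ℂ} {F G : X → C4} {p q x : X} {k : ℕ}

variable {f : X → X → ℂ}

theorem JE1_d0 (s : X → ℂ) (p q : X) : loc u (d0 s) p q = Pi.single 0 (u p q * s q) := by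
  ext i
  fin_cases i <;> simp [loc, lam, d0, mulVec, dotProduct, Fin.sum_univ_four]

theorem JE1_dg (h : Dg 1 F) (p q : X) : loc u F p q 0 = 0 ∧ loc u F p q 3 = 0 := by
  have h0 := h q 0 (by decide)
  have h3 := h q 3 (by decide)
  constructor <;> simp [loc, lam, mulVec, dotProduct, Fin.sum_univ_four, h0, h3]

theorem JE1_inj (h1 : u p q ≠ 0) (h2 : canon X p q ≠ 0) (e : loc u F p q = loc u G p q) :
    F q = G q := by
  have h3 := lam_unit (A := jac p q) (by rwa [jac_det])
  exact Matrix.mulVec_injective_iff_isUnit.2 ((Matrix.isUnit_iff_isUnit_det _).2 h3)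
    (smul_right_injective _ h1 e)

theorem JE1_flat {w : C2 → ℂ} (hw : ContDiff ℝ ∞ w) :
    ContDiff ℝ ∞ fun z => (Pi.single 0 (w z) : C4) := by
  refine contDiff_pi.2 fun i => ?_
  by_cases h : i = 0
  · subst h
    simpa using hw
  · simpa [Pi.single_eq_of_ne h] using contDiff_const

theorem JE1_db (w : C2 → ℂ) (z : C2) : dbF (fun z => (Pi.single 0 (w z) : C4)) z =
    ![0, dbar w z (ee 0), dbar w z (ee 1), 0] := by
  rw [dbF_apply]
  simp [dbar]

theorem JE1_at (hu : IsBundle HolAt u) (h : F ∈ Om u 1) (h0 : dbN u F = 0) (p : X) :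
    ∃ s : X → ℂ, SmAt (u p * s) p ∧ ∀ᶠ q in 𝓝 p, dbN u (d0 s) q = F q := by
  have hp := mem_chart_source C2 p
  have ht := (chartAt C2 p).open_target.mem_nhds (mem_chart_target C2 p)
  have h1 := ((gd_self hu p).sm_iff hu).1 (h.1 p)
  have h2 := ((chartAt C2 p).tendsto_symm hp).eventually (gd_ev hu p)
  obtain ⟨r, hr, hb⟩ := Metric.eventually_nhds_iff_ball.1 (h1.and (h2.and ht))
  choose ϖ a1 a2 using fun z => exists_anti
    ![(loc u F p ∘ (chartAt C2 p).symm) z 1, (loc u F p ∘ (chartAt C2 p).symm) z 2]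
  obtain ⟨K, -, hK⟩ := dol (half_pos hr) (half_lt_self hr)
  obtain ⟨w, hw, hd, -⟩ := hK (chartAt C2 p p) ϖ (fun z _ => a1 z) (fun j z hz => by
    simp only [a2]
    fin_cases j
    · exact contDiffAt_pi.1 (hb z hz).1 1
    · exact contDiffAt_pi.1 (hb z hz).1 2) (fun z hz => by
    obtain ⟨b1, b2, b3⟩ := hb z hz
    have e := (chartAt C2 p).right_inv b3
    have h3 := b2.db_loc hu (F := F) (by rw [e]; exact b1.differentiableAt (by simp))
    rw [e, h0, dbF_apply] at h3
    have h4 := congrFun h3 3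
    simp only [a2]
    exact sub_eq_zero.1 (h4.symm.trans (by simp [loc])))
  refine ⟨fun q => w (chartAt C2 p q) / u p q, ?_, ?_⟩
  · refine SmAt.congr (f := fun q => w (chartAt C2 p q)) ?_ ?_
    · filter_upwards [ht] with z hz
      refine hw.contDiffAt.congr_of_eventuallyEq ?_
      filter_upwards [(chartAt C2 p).open_target.mem_nhds hz] with y hy
      exact congrArg w ((chartAt C2 p).right_inv hy)
    · filter_upwards [hu.ne p] with q hq
      exact (mul_div_cancel₀ _ hq).symm
  · filter_upwards [gd_ev hu p, (hu.ne p).eventually_nhds, canon_hol.ne p,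
      ((chartAt C2 p).continuousAt hp).eventually (ball_mem_nhds _ (half_pos hr))]
      with q g1 g2 g3 g4
    have e : loc u (d0 fun q => w (chartAt C2 p q) / u p q) p ∘ (chartAt C2 p).symm
        =ᶠ[𝓝 (chartAt C2 p q)] fun z => (Pi.single 0 (w z) : C4) := by
      filter_upwards [((chartAt C2 p).tendsto_symm g1.1).eventually g2,
        (chartAt C2 p).open_target.mem_nhds ((chartAt C2 p).map_source g1.1)] with y y1 y2
      rw [Function.comp_apply, JE1_d0, mul_div_cancel₀ _ y1, (chartAt C2 p).right_inv y2]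
    refine JE1_inj g1.2.1 g3 ?_
    rw [g1.db_loc hu (((JE1_flat hw).differentiable (by simp) _).congr_of_eventuallyEq e),
      dbF_congr e, JE1_db, hd _ g4, a2, a2, Function.comp_apply, (chartAt C2 p).left_inv g1.1]
    obtain ⟨c0, c3⟩ := JE1_dg (u := u) h.2 p q
    ext i
    fin_cases i
    · exact c0.symm
    · rfl
    · rfl
    · exact c3.symm

theorem rel_ex (hu : IsBundle HolAt u) (h : F ∈ Om u 1) (h0 : dbN u F = 0) : ∃ f, Rel u F f := by
  choose f h1 h2 using JE1_at hu h h0
  exact ⟨f, fun p => ⟨h1 p, h2 p⟩⟩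

end Vale.Agent.P267Y
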