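import Vale.Agent.P267Y.JF1

/-! From forms to sections of the system. `rho_eq`: `fdet_eq`, `e1`, `e3`, `e_pos`. `Gi_sm`: `Matrix.inv_def`, or `(Gm)⁻¹ = l⁻¹ • lam (Em⁻¹)` with the explicit inverse of a two by two matrix. `loc_fr`: `U_eq`. `sm_fr`: `Gd.sm_iff`, `loc_fr`. `U_pr`: solve `U_eq` for `U p x`, `lam_pr`. `norm_l`: apply `U_eq` to the basis vector `0` and use `U_unit`. -/

open scoped Manifold ContDiff Topology ComplexConjugate
open Filter Metric Set Matrix MeasureTheory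

noncomputable section

namespace Vale.Agent.P267Y

open Vale.Agent.P267 Vale.Agent.P267I

set_option linter.unusedSectionVars false

variable {X : Type} [TopologicalSpace X] [ChartedSpace C2 X] [T2Space X] [CompactSpace X]
  [IsManifold 𝓘(ℂ, C2) ω X] [MeasurableSpace X] [BorelSpace X] {S : P267I.Pre X 4}
  {u : X → X → ℂ} {l : X → C2 → ℂ} {B : X → C2 → Mat 4} {F G : X → C4} {p q x : X} {z : C2}
  {k : ℕ}

theorem JF_mv {M : C2 → Mat 4} {v : C2 → C4} {s : Set C2}
    (hM : ∀ i j, ContDiffOn ℝ ∞ (fun z => M z i j) s) (hv : ContDiffOn ℝ ∞ v s) :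
    ContDiffOn ℝ ∞ (fun z => M z *ᵥ v z) s :=
  contDiffOn_pi.2 fun i => ContDiffOn.sum (s := Finset.univ) fun j _ =>
    (hM i j).mul (contDiffOn_pi.1 hv j)

theorem JF_unit (h : Dolb S u l) (x : X) : IsUnit (u x x • Gm S l x (chartAt C2 x x)) := by
  rw [isUnit_iff_isUnit_det, det_smul]
  exact (IsUnit.mk0 _ (pow_ne_zero _ (h.gd x x (S.W_mem x)).2.1)).mul
    (h.G_unit (V_mem (S.W_mem x)))

theorem JF_inj (h : Dolb S u l) (x : X) :
    Function.Injective (u x x • Gm S l x (chartAt C2 x x)).mulVec :=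
  mulVec_injective_iff_isUnit.2 (JF_unit h x)

theorem JF_pr (c : ℂ) (k : ℕ) : c • Gm S l p z * pr k = pr k * c • Gm S l p z := by
  rw [Matrix.smul_mul, Matrix.mul_smul, G_pr]

theorem Dolb.U_fr (h : Dolb S u l) (hx : x ∈ S.W p) (F : X → C4) :
    S.U p x *ᵥ fr S u l F x = Gm S l p (chartAt C2 p x) *ᵥ loc u F p x := by
  rw [fr, mulVec_mulVec, h.U_eq p x hx, ← mulVec_mulVec, smul_mulVec, loc]

theorem Dolb.loc_fr (h : Dolb S u l) (hz : z ∈ S.V p) (F : X → C4) :
    S.loc p (fr S u l F) z = Gm S l p z *ᵥ loc u F p ((chartAt C2 p).symm z) := by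
  rw [Pre.loc, h.U_fr (V_symm hz).1, (V_symm hz).2]

theorem Dolb.sm_fr (h : Dolb S u l) (hu : IsBundle HolAt u) :
    S.Sm (fr S u l F) ↔ ∀ p, SmP u F p := by
  refine ⟨fun hs p => (Gd.sm_iff hu (h.gd p p (S.W_mem p))).2 ?_, fun hs p => ?_⟩
  · filter_upwards [(V_open S p).mem_nhds (V_mem (S.W_mem p))] with z hz
    refine ((JF_mv (h.Gi_sm p) (hs p)).congr fun y hy => ?_).contDiffAt ((V_open S p).mem_nhds hz)
    rw [h.loc_fr hy, mulVec_mulVec, nonsing_inv_mul _ (h.G_unit hy), one_mulVec]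
    rfl
  · refine (JF_mv (v := loc u F p ∘ (chartAt C2 p).symm) (h.G_sm p) fun z hz => ?_).congr
      fun y hy => h.loc_fr hy F
    have e := ((Gd.sm_iff hu (h.gd p _ (V_symm hz).1)).1 (hs _)).self_of_nhds
    rw [(V_symm hz).2] at e
    exact e.contDiffWithinAt

theorem fr_add (F G : X → C4) : fr S u l (F + G) = fr S u l F + fr S u l G := by
  exact funext fun x => mulVec_add _ _ _

theorem fr_smul (c : ℂ) (F : X → C4) : fr S u l (c • F) = c • fr S u l F := by
  exact funext fun x => mulVec_smul _ c (F x)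

theorem Dolb.fr_bij (h : Dolb S u l) : Function.Bijective (fr S u l) := by
  refine ⟨fun F G e => funext fun x => JF_inj h x (congrFun e x), fun s => ?_⟩
  choose F hF using fun x => mulVec_surjective_iff_isUnit.2 (JF_unit h x) (s x)
  exact ⟨F, funext hF⟩

theorem Dolb.fr_zero (h : Dolb S u l) : fr S u l F x = 0 ↔ F x = 0 := by
  exact (JF_inj h x).eq_iff' (mulVec_zero _)

theorem fr_pr (k : ℕ) (F : X → C4) :
    (fr S u l fun x => pr k *ᵥ F x) = fun x => pr k *ᵥ fr S u l F x := by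
  funext x
  rw [fr, fr, mulVec_mulVec, mulVec_mulVec, JF_pr]

theorem Dolb.dg_fr (h : Dolb S u l) : Dg k (fr S u l F) ↔ Dg k F := by
  refine forall_congr' fun q => ?_
  rw [dg_iff, dg_iff, ← congrFun (fr_pr k F) q]
  exact (JF_inj h q).eq_iff

theorem Dolb.U_pr (h : Dolb S u l) (hx : x ∈ S.W p) (k : ℕ) : S.U p x * pr k = pr k * S.U p x := by
  refine (JF_unit h x).mul_right_cancel ?_
  rw [mul_assoc, ← JF_pr, ← mul_assoc, mul_assoc (pr k), h.U_eq p x hx, mul_assoc, Matrix.smul_mul,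
    lam_pr, ← Matrix.mul_smul, ← mul_assoc, G_pr, mul_assoc]

theorem Dolb.norm_l (h : Dolb S u l) (hx : x ∈ S.W p) :
    Complex.normSq (l p (chartAt C2 p x) * u p x) = Complex.normSq (l x (chartAt C2 x x) * u x x) := by
  have e := congrArg (fun M : Mat 4 => (Mᴴ * M) 0 0) (h.U_eq p x hx)
  simp only [conjTranspose_mul (S.U p x), mul_assoc] at e
  rw [← mul_assoc (S.U p x)ᴴ, S.U_unit, one_mul] at e
  apply Complex.ofReal_injective
  rw [Complex.normSq_eq_conj_mul_self, Complex.normSq_eq_conj_mul_self]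
  simp [Gm, lam, Matrix.mul_apply, Fin.sum_univ_four] at e
  simp only [map_mul]
  linear_combination -e

end Vale.Agent.P267Y
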