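import Vale.Agent.P267Y.JP
import Vale.Agent.P267Y.JD2

/-! From forms to sections of the system. `rho_eq`: `fdet_eq`, `e1`, `e3`, `e_pos`. `Gi_sm`: `Matrix.inv_def`, or `(Gm)⁻¹ = l⁻¹ • lam (Em⁻¹)` with the explicit inverse of a two by two matrix. `loc_fr`: `U_eq`. `sm_fr`: `Gd.sm_iff`, `loc_fr`. `U_pr`: solve `U_eq` for `U p x`, `lam_pr`. `norm_l`: apply `U_eq` to the basis vector `0` and use `U_unit`. -/

open scoped Manifold ContDiff Topology ComplexConjugate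
open Filter Metric Set Matrix MeasureTheory

noncomputable section

namespace Vale.Agent.P267Y

open Vale.Agent.P267 Vale.Agent.P267I

set_option linter.unusedSectionVars false

variable {X : Type} [TopologicalSpace X] [ChartedSpace C2 X] [T2Space X] [CompactSpace X]
  [IsManifold 𝓘(ℂ, C2) ω X] [MeasurableSpace X] [BorelSpace X] {S : P267I.Pre X 4}
  {u : X → X → ℂ} {l : X → C2 → ℂ} {B : X → C2 → Mat 4} {F G : X → C4} {p q x : X} {z : C2}
  {k : ℕ}

theorem JF1_fdet (h : Dolb S u l) (hz : z ∈ S.V p) :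
    (fdet fun a => S.e p a z) = Complex.normSq (Em S p z).det := by
  rw [Em, ← fdet_eq, ← h.e1 p z hz, ← h.e3 p z hz]
  congr 1
  funext a
  fin_cases a <;> rfl

theorem JF1_Em (S : P267I.Pre X 4) (p : X) (a b : Fin 2) :
    ContDiffOn ℝ ∞ (fun z => Em S p z a b) (S.V p) := by
  have h : ∀ (c : Fin 4) (i : Fin 2), ContDiffOn ℝ ∞ (fun z => S.e p c z i) (S.V p) := fun c i =>
    contDiffOn_pi.1 (S.e_sm p c) i
  fin_cases a <;> fin_cases b
  · exact h 0 0
  · exact h 2 0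
  · exact h 0 1
  · exact h 2 1

theorem JF1_lam {E : C2 → Matrix (Fin 2) (Fin 2) ℂ} {V : Set C2}
    (hE : ∀ a b, ContDiffOn ℝ ∞ (fun z => E z a b) V) (i j : Fin 4) :
    ContDiffOn ℝ ∞ (fun z => lam (E z) i j) V := by
  have hc : ∀ f : C2 → ℂ, ContDiffOn ℝ ∞ f V → ContDiffOn ℝ ∞ (fun z => conj (f z)) V :=
    fun f hf => Complex.conjCLE.contDiff.comp_contDiffOn hf
  have hd : ContDiffOn ℝ ∞ (fun z => (E z).det) V := by
    simp only [Matrix.det_fin_two]
    exact ((hE 0 0).mul (hE 1 1)).sub ((hE 0 1).mul (hE 1 0))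
  fin_cases i <;> fin_cases j <;>
    first | exact contDiffOn_const | exact hc _ (hE _ _) | exact hc _ hd

theorem Dolb.gam (h : Dolb S u l) : S.gam = pr 1 - pr 0 - pr 2 := by
  change S.c 0 * S.c 1 * S.c 2 * S.c 3 = _
  rw [h.c, gam_cc]

theorem Dolb.det_ne (h : Dolb S u l) (hz : z ∈ S.V p) : (Em S p z).det ≠ 0 := by
  intro h0
  have h1 := S.e_pos p z hz
  rw [JF1_fdet h hz, h0, map_zero] at h1
  exact lt_irrefl _ h1

theorem Dolb.rho_eq (h : Dolb S u l) (hz : z ∈ S.V p) :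
    S.rho p z = (Complex.normSq (Em S p z).det)⁻¹ := by
  rw [Pre.rho, JF1_fdet h hz]

theorem Dolb.G_unit (h : Dolb S u l) (hz : z ∈ S.V p) : IsUnit (Gm S l p z).det := by
  rw [Gm, Matrix.det_smul]
  exact ((h.l_ne p z hz).isUnit.pow _).mul (lam_unit (h.det_ne hz))

theorem Dolb.G_sm (h : Dolb S u l) (p : X) (i j : Fin 4) :
    ContDiffOn ℝ ∞ (fun z => Gm S l p z i j) (S.V p) := by
  exact (h.l_sm p).mul (JF1_lam (JF1_Em S p) i j)

theorem Dolb.Gi_sm (h : Dolb S u l) (p : X) (i j : Fin 4) :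
    ContDiffOn ℝ ∞ (fun z => (Gm S l p z)⁻¹ i j) (S.V p) := by
  have hd : ContDiffOn ℝ ∞ (fun z => (Em S p z).det) (S.V p) := by
    simp only [Matrix.det_fin_two]
    exact ((JF1_Em S p 0 0).mul (JF1_Em S p 1 1)).sub ((JF1_Em S p 0 1).mul (JF1_Em S p 1 0))
  have hi : ContDiffOn ℝ ∞ (fun z => (Em S p z).det⁻¹) (S.V p) :=
    hd.inv fun z hz => h.det_ne hz
  have hE : ∀ a b, ContDiffOn ℝ ∞ (fun z => (Em S p z)⁻¹ a b) (S.V p) := by
    intro a b
    simp only [Matrix.inv_def, Ring.inverse_eq_inv', Matrix.smul_apply, smul_eq_mul,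
      Matrix.adjugate_fin_two]
    refine hi.mul ?_
    fin_cases a <;> fin_cases b
    · exact JF1_Em S p 1 1
    · exact (JF1_Em S p 0 1).neg
    · exact (JF1_Em S p 1 0).neg
    · exact JF1_Em S p 0 0
  refine (((h.l_sm p).inv fun z hz => h.l_ne p z hz).mul (JF1_lam hE i j)).congr fun z hz => ?_
  have h1 : Gm S l p z * ((l p z)⁻¹ • lam (Em S p z)⁻¹) = 1 := by
    rw [Gm, Matrix.smul_mul, Matrix.mul_smul, smul_smul, mul_inv_cancel₀ (h.l_ne p z hz), one_smul,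
      ← lam_mul, Matrix.nonsing_inv_mul _ (h.det_ne hz).isUnit, lam_one]
  rw [Matrix.inv_eq_right_inv h1]
  rfl

theorem G_pr (k : ℕ) : Gm S l p z * pr k = pr k * Gm S l p z := by
  rw [Gm, Matrix.smul_mul, Matrix.mul_smul, lam_pr]

end Vale.Agent.P267Y
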