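import Vale.Agent.P267Y.JG1

/-! Local formulas. `P_loc`: `U_fr`, `Gd.db_loc`; near `z` we have `loc u F p ∘ symm = Gm⁻¹ *ᵥ S.loc p (fr F)` (`loc_fr`), so `dbF_mul`; `Gm * nn k * Gm⁻¹ = ∑ j, conj (Em k j) • nn j` (`lam_nn`) and `dbar_vec`. `D_up`: `up_cc`, `ac_app`, `e1`, `e3`, `fderiv` of `pr k *ᵥ f`. `up_R`: `up_of`, `nn_pr`, `G_pr`; the entries of `Gm⁻¹` between different degrees vanish near `z`. -/

open scoped Manifold ContDiff Topology ComplexConjugate
open Filter Metric Set Matrix MeasureTheory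

noncomputable section

namespace Vale.Agent.P267Y

open Vale.Agent.P267 Vale.Agent.P267I

set_option linter.unusedSectionVars false

variable {X : Type} [TopologicalSpace X] [ChartedSpace C2 X] [T2Space X] [CompactSpace X]
  [IsManifold 𝓘(ℂ, C2) ω X] [MeasurableSpace X] [BorelSpace X] {S : P267I.Pre X 4}
  {u : X → X → ℂ} {l : X → C2 → ℂ} {B : X → C2 → Mat 4} {F G : X → C4} {p q x : X} {z : C2}
  {k : ℕ}

theorem JG_conj (h : Dolb S u l) (hz : z ∈ S.V p) (k : Fin 2) :
    Gm S l p z * (nn k * (Gm S l p z)⁻¹) = ∑ j, conj (Em S p z k j) • nn j := by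
  have e : Gm S l p z * nn k = (∑ j, conj (Em S p z k j) • nn j) * Gm S l p z := by
    rw [Gm, Matrix.smul_mul, lam_nn, Matrix.mul_smul, Finset.sum_mul]
    simp only [Matrix.smul_mul]
  rw [← Matrix.mul_assoc, e, Matrix.mul_assoc, mul_nonsing_inv _ (h.G_unit hz), Matrix.mul_one]

theorem Dolb.P_loc (h : Dolb S u l) (hu : IsBundle HolAt u) (hx : x ∈ S.W p)
    (hF : DifferentiableAt ℝ (S.loc p (fr S u l F)) (chartAt C2 p x)) :
    S.U p x *ᵥ fr S u l ((2 : ℂ) • dbN u F) x =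
      Pp S p (S.loc p (fr S u l F)) (chartAt C2 p x) +
        Rm S l p (chartAt C2 p x) *ᵥ S.loc p (fr S u l F) (chartAt C2 p x) := by
  have hz : chartAt C2 p x ∈ S.V p := ⟨x, hx, rfl⟩
  have hV : S.V p ∈ 𝓝 (chartAt C2 p x) :=
    (chartAt C2 p).image_mem_nhds (S.W_sub p hx) ((S.W_open p).mem_nhds hx)
  have hM : ∀ i j, DifferentiableAt ℝ (fun y => (Gm S l p y)⁻¹ i j) (chartAt C2 p x) :=
    fun i j => ((h.Gi_sm p i j).contDiffAt hV).differentiableAt (by simp)
  have e : loc u F p ∘ (chartAt C2 p).symm =ᶠ[𝓝 (chartAt C2 p x)]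
      fun y => (Gm S l p y)⁻¹ *ᵥ S.loc p (fr S u l F) y := by
    filter_upwards [hV] with y hy
    rw [h.loc_fr hy, mulVec_mulVec, nonsing_inv_mul _ (h.G_unit hy), one_mulVec]
    rfl
  have hd : DifferentiableAt ℝ (fun y => (Gm S l p y)⁻¹ *ᵥ S.loc p (fr S u l F) y)
      (chartAt C2 p x) := by
    refine differentiableAt_pi.2 fun i => ?_
    simp only [mulVec, dotProduct]
    exact DifferentiableAt.fun_sum fun j _ => (hM i j).mul (differentiableAt_pi.1 hF j)
  rw [fr_smul, Pi.smul_apply, mulVec_smul, h.U_fr hx,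
    (h.gd p x hx).db_loc hu (hd.congr_of_eventuallyEq e), dbF_congr e, dbF_mul hM hF, mulVec_add,
    smul_add, Rm, smul_mulVec, mulVec_mulVec, Pp]
  congr 2
  rw [mulVec_sum]
  simp only [mulVec_mulVec, JG_conj h hz]
  have v : ∀ w : C2, (fun i => dbar (fun y => S.loc p (fr S u l F) y i) (chartAt C2 p x) w) =
      ∑ k : Fin 2, conj (w k) •
        fun i => dbar (fun y => S.loc p (fr S u l F) y i) (chartAt C2 p x) (ee k) := fun w => by
    funext i
    rw [dbar_vec]
    simp only [Finset.sum_apply, Pi.smul_apply, smul_eq_mul]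
  rw [v (S.e p 0 _), v (S.e p 2 _)]
  simp only [Fin.sum_univ_two, add_mulVec, smul_mulVec, mulVec_add, mulVec_smul, Em, of_apply,
    cons_val', cons_val_zero, cons_val_one, cons_val_fin_one]
  abel

end Vale.Agent.P267Y
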