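import Vale.Agent.P267Y.JF

/-! Local formulas. `P_loc`: `U_fr`, `Gd.db_loc`; near `z` we have `loc u F p ∘ symm = Gm⁻¹ *ᵥ S.loc p (fr F)` (`loc_fr`), so `dbF_mul`; `Gm * nn k * Gm⁻¹ = ∑ j, conj (Em k j) • nn j` (`lam_nn`) and `dbar_vec`. `D_up`: `up_cc`, `ac_app`, `e1`, `e3`, `fderiv` of `pr k *ᵥ f`. `up_R`: `up_of`, `nn_pr`, `G_pr`; the entries of `Gm⁻¹` between different degrees vanish near `z`. -/

open scoped Manifold ContDiff Topology ComplexConjugate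
open Filter Metric Set Matrix MeasureTheory

noncomputable section

namespace Vale.Agent.P267Y

open Vale.Agent.P267 Vale.Agent.P267I

set_option linter.unusedSectionVars false

variable {X : Type} [TopologicalSpace X] [ChartedSpace C2 X] [T2Space X] [CompactSpace X]
  [IsManifold 𝓘(ℂ, C2) ω X] [MeasurableSpace X] [BorelSpace X] {S : P267I.Pre X 4}
  {u : X → X → ℂ} {l : X → C2 → ℂ} {B : X → C2 → Mat 4} {F G : X → C4} {p q x : X} {z : C2}
  {k : ℕ}

theorem JG1_fd (M : Mat 4) {f : C2 → C4} (hf : DifferentiableAt ℝ f z) (v : C2) :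
    fderiv ℝ (fun y => M *ᵥ f y) z v = M *ᵥ fderiv ℝ f z v := by
  have h : HasFDerivAt (fun y => M *ᵥ f y) (((LinearMap.toContinuousLinearMap
      (Matrix.mulVecLin M)).restrictScalars ℝ).comp (fderiv ℝ f z)) z :=
    ((LinearMap.toContinuousLinearMap (Matrix.mulVecLin M)).restrictScalars ℝ).hasFDerivAt.comp z
      hf.hasFDerivAt
  rw [h.fderiv]
  rfl

theorem JG1_db {f : C2 → C4} (hf : DifferentiableAt ℝ f z) (v : C2) :
    (fun i => dbar (fun y => f y i) z v) =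
      (2 : ℂ)⁻¹ • (fderiv ℝ f z v + Complex.I • fderiv ℝ f z (Complex.I • v)) := by
  funext i
  rw [ac_app, fderiv_apply hf i]
  rfl

theorem JG1_up (M : Mat 4) (v : C4) :
    pr 1 *ᵥ M *ᵥ pr 0 *ᵥ v + pr 2 *ᵥ M *ᵥ pr 1 *ᵥ v = up M *ᵥ v := by
  simp only [up, add_mulVec, mulVec_mulVec, Matrix.mul_assoc]

theorem JG1_comm {M : Mat 4} :
    (∀ k, M * pr k = pr k * M) ↔ ∀ i j, dg i ≠ dg j → M i j = 0 := by
  constructor
  · intro h i j hij
    have e := congrFun (congrFun (h (dg j)) i) j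
    rw [pr, mul_diagonal, diagonal_mul, if_pos rfl, if_neg hij, mul_one, zero_mul] at e
    exact e
  · intro h k
    ext i j
    rw [pr, mul_diagonal, diagonal_mul]
    by_cases hij : dg i = dg j
    · rw [hij, mul_comm]
    · rw [h i j hij, mul_zero, zero_mul]

theorem JG1_inv {M : Mat 4} (h : M * pr k = pr k * M) : M⁻¹ * pr k = pr k * M⁻¹ := by
  by_cases hM : IsUnit M.det
  · calc M⁻¹ * pr k = M⁻¹ * (pr k * M) * M⁻¹ := by
          rw [Matrix.mul_assoc, Matrix.mul_assoc, mul_nonsing_inv _ hM, Matrix.mul_one]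
      _ = pr k * M⁻¹ := by
          rw [← h, ← Matrix.mul_assoc, nonsing_inv_mul _ hM, Matrix.one_mul]
  · rw [nonsing_inv_apply_not_isUnit _ hM, Matrix.zero_mul, Matrix.mul_zero]

theorem JG1_dbM (m : Fin 2) (k : ℕ) : dbM (fun y => (Gm S l p y)⁻¹) z m * pr k =
    pr k * dbM (fun y => (Gm S l p y)⁻¹) z m := by
  refine JG1_comm.2 (fun i j hij => ?_) k
  have e : (fun y => (Gm S l p y)⁻¹ i j) = fun _ => 0 :=
    funext fun y => JG1_comm.1 (fun k => JG1_inv (G_pr k)) i j hij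
  rw [dbM, of_apply, e, ac_app]
  simp

theorem Dolb.D_up (h : Dolb S u l) (hz : z ∈ S.V p) {f : C2 → C4} (hf : DifferentiableAt ℝ f z) :
    pr 1 *ᵥ S.Dloc B p (fun y => pr 0 *ᵥ f y) z + pr 2 *ᵥ S.Dloc B p (fun y => pr 1 *ᵥ f y) z =
      Pp S p f z + up (B p z) *ᵥ f z := by
  have e : ∀ a, pr 1 *ᵥ cc a *ᵥ pr 0 *ᵥ fderiv ℝ f z (S.e p a z) +
      pr 2 *ᵥ cc a *ᵥ pr 1 *ᵥ fderiv ℝ f z (S.e p a z) = up (cc a) *ᵥ fderiv ℝ f z (S.e p a z) :=
    fun a => JG1_up _ _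
  have e0 := e 0
  have e1 := e 1
  have e2 := e 2
  have e3 := e 3
  rw [up_cc.1] at e0
  rw [up_cc.2.1] at e1
  rw [up_cc.2.2.1] at e2
  rw [up_cc.2.2.2] at e3
  have eB := JG1_up (B p z) (f z)
  have eP : Pp S p f z = nn 0 *ᵥ fderiv ℝ f z (S.e p 0 z) +
      (Complex.I • nn 0) *ᵥ fderiv ℝ f z (S.e p 1 z) + nn 1 *ᵥ fderiv ℝ f z (S.e p 2 z) +
      (Complex.I • nn 1) *ᵥ fderiv ℝ f z (S.e p 3 z) := by
    rw [Pp, JG1_db hf, JG1_db hf, h.e1 p z hz, h.e3 p z hz, mulVec_smul, mulVec_smul, ← smul_add,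
      smul_smul, mul_inv_cancel₀ two_ne_zero, one_smul, mulVec_add, mulVec_add, mulVec_smul,
      mulVec_smul, smul_mulVec, smul_mulVec, add_assoc (nn 0 *ᵥ _ + _)]
  rw [eP, ← e0, ← e1, ← e2, ← e3, ← eB]
  simp only [Pre.Dloc, JG1_fd _ hf, h.c, Fin.sum_univ_four, mulVec_add]
  abel

theorem Dolb.up_R (h : Dolb S u l) (hz : z ∈ S.V p) : up (Rm S l p z) = Rm S l p z := by
  refine up_of fun k => ?_
  have e : (∑ m : Fin 2, nn m * dbM (fun y => (Gm S l p y)⁻¹) z m) * pr k =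
      pr (k + 1) * ∑ m : Fin 2, nn m * dbM (fun y => (Gm S l p y)⁻¹) z m := by
    rw [Finset.sum_mul, Finset.mul_sum]
    refine Finset.sum_congr rfl fun m _ => ?_
    rw [Matrix.mul_assoc, JG1_dbM, ← Matrix.mul_assoc, nn_pr, Matrix.mul_assoc]
  rw [Rm, Matrix.smul_mul, Matrix.mul_smul, Matrix.mul_assoc, e, ← Matrix.mul_assoc, G_pr,
    Matrix.mul_assoc]

theorem Dolb.R_sm (h : Dolb S u l) (p : X) (i j : Fin 4) :
    ContDiffOn ℝ ∞ (fun z => Rm S l p z i j) (S.V p) := by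
  have hd : ∀ a b m, ContDiffOn ℝ ∞
      (fun z => dbar (fun y => (Gm S l p y)⁻¹ a b) z (ee m)) (S.V p) := fun a b m z hz =>
    (dbar_sm_apply ((h.Gi_sm p a b).contDiffAt ((V_open S p).mem_nhds hz)) _).contDiffWithinAt
  simp only [Rm, Matrix.smul_apply, Matrix.mul_apply, Matrix.sum_apply, dbM, of_apply,
    smul_eq_mul]
  exact contDiffOn_const.mul (ContDiffOn.sum fun a _ => (h.G_sm p i a).mul
    (ContDiffOn.sum fun m _ => ContDiffOn.sum fun b _ => contDiffOn_const.mul (hd b j m)))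

end Vale.Agent.P267Y
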