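import Vale.Agent.P267Y.JG

/-! The order zero difference is a global endomorphism. `diff_tr`: change of frame (`U_sm`) and of chart. `S_loc`: `P_loc`, `D_up`, `compat` for the sections `pr k *ᵥ s` (`U_pr`). `S_cov`: given `v` take `s y = (U x y)ᴴ *ᵥ v` (constant in the frame at `x`, `fr_bij`), compare `S_loc` for `p` and for `x`. -/

open scoped Manifold ContDiff Topology ComplexConjugate
open Filter Metric Set Matrix MeasureTheory

noncomputable section

namespace Vale.Agent.P267Y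

open Vale.Agent.P267 Vale.Agent.P267I

set_option linter.unusedSectionVars false

variable {X : Type} [TopologicalSpace X] [ChartedSpace C2 X] [T2Space X] [CompactSpace X]
  [IsManifold 𝓘(ℂ, C2) ω X] [MeasurableSpace X] [BorelSpace X] {S : P267I.Pre X 4}
  {u : X → X → ℂ} {l : X → C2 → ℂ} {B : X → C2 → Mat 4} {F G : X → C4} {p q x : X} {z : C2}
  {k : ℕ}

theorem JH_mv {M : C2 → Mat 4} {f : C2 → C4}
    (hM : ∀ i j, DifferentiableAt ℝ (fun y => M y i j) z) (hf : DifferentiableAt ℝ f z) :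
    DifferentiableAt ℝ (fun y => M y *ᵥ f y) z := by
  refine differentiableAt_pi.2 fun i => ?_
  simp only [mulVec, dotProduct]
  exact DifferentiableAt.fun_sum fun j _ => (hM i j).mul (differentiableAt_pi.1 hf j)

theorem JH_U (hp : x ∈ S.W p) (hq : x ∈ S.W q) (i j : Fin 4) :
    DifferentiableAt ℝ (fun z => (S.U p ((chartAt C2 p).symm z) *
      (S.U q ((chartAt C2 p).symm z))ᴴ) i j) (chartAt C2 p x) :=
  ((S.U_sm p q i j).contDiffAt ((chartAt C2 p).image_mem_nhds (S.W_sub p hp)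
    (((S.W_open p).inter (S.W_open q)).mem_nhds ⟨hp, hq⟩))).differentiableAt (by simp)

theorem diff_tr {s : X → C4} (hp : x ∈ S.W p) (hq : x ∈ S.W q)
    (h : DifferentiableAt ℝ (S.loc q s) (chartAt C2 q x)) :
    DifferentiableAt ℝ (S.loc p s) (chartAt C2 p x) := by
  have h1 := S.W_sub p hp
  have h2 := S.W_sub q hq
  have hτ : DifferentiableAt ℝ (chartAt C2 q ∘ (chartAt C2 p).symm) (chartAt C2 p x) :=
    (cn_an h1 h2).differentiableAt.restrictScalars ℝ
  have h3 : DifferentiableAt ℝ (S.loc q s ∘ (chartAt C2 q ∘ (chartAt C2 p).symm))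
      (chartAt C2 p x) := by
    refine DifferentiableAt.comp _ ?_ hτ
    simpa only [Function.comp_apply, (chartAt C2 p).left_inv h1] using h
  refine (JH_mv (JH_U hp hq) h3).congr_of_eventuallyEq ?_
  filter_upwards [((chartAt C2 p).tendsto_symm h1).eventually
    ((chartAt C2 q).eventually_left_inverse h2)] with y hy
  simp only [Function.comp_apply, Pre.loc, hy, mulVec_mulVec, Matrix.mul_assoc, S.U_unit,
    Matrix.mul_one]

theorem JH_fd {f : C2 → C4} (hf : DifferentiableAt ℝ f z) {i : Fin 4} (h0 : ∀ y, f y i = 0)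
    (v : C2) : fderiv ℝ f z v i = 0 := by
  have h1 := hasFDerivAt_pi'.1 hf.hasFDerivAt i
  simp only [h0] at h1
  exact DFunLike.congr_fun (h1.unique (hasFDerivAt_const _ _)) v

theorem JH_gam (h : Dolb S u l) (w : C4) (i : Fin 4) :
    (S.gam *ᵥ w) i = if dg i = 1 then w i else -w i := by
  rw [h.gam, sub_mulVec, sub_mulVec, Pi.sub_apply, Pi.sub_apply, pr_apply, pr_apply, pr_apply]
  fin_cases i <;> simp [dg]

theorem JH_cc (a : Fin 4) {w : C4} (h1 : w 1 = 0) (h2 : w 2 = 0) {i : Fin 4} (hi : dg i ≠ 1) :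
    (cc a *ᵥ w) i = 0 := by
  fin_cases i <;> fin_cases a <;>
    simp [dg, cc, nn, mulVec, dotProduct, Fin.sum_univ_succ, h1, h2] at hi ⊢

theorem Dolb.dg1 (h : Dolb S u l) (hB : S.IsOp B) {s : X → C4} (hs : S.Sm s)
    (h1 : ∀ x, pr 1 *ᵥ s x = 0) : Dg 1 (S.D B s) := by
  intro x i hi
  have hz : chartAt C2 x x ∈ S.V x := ⟨x, S.W_mem x, rfl⟩
  have hd : DifferentiableAt ℝ (S.loc x s) (chartAt C2 x x) :=
    ((hs x).contDiffAt ((chartAt C2 x).image_mem_nhds (S.W_sub x (S.W_mem x))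
      ((S.W_open x).mem_nhds (S.W_mem x)))).differentiableAt (by simp)
  have g1 : ∀ y, S.gam *ᵥ s y = -s y := fun y => by
    funext j
    have := congrFun (h1 y) j
    rw [pr_apply] at this
    rw [JH_gam h, Pi.neg_apply]
    split_ifs with hj
    · rw [if_pos hj, Pi.zero_apply] at this
      rw [this, neg_zero]
    · rfl
  have g2 : ∀ y, S.gam *ᵥ S.loc x s y = -S.loc x s y := fun y => by
    rw [Pre.loc, mulVec_mulVec, ← S.U_gam, ← mulVec_mulVec, g1, mulVec_neg]
  have g3 : ∀ j, dg j = 1 → ∀ y, S.loc x s y j = 0 := fun j hj y => by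
    have := congrFun (g2 y) j
    rw [JH_gam h, if_pos hj, Pi.neg_apply] at this
    exact self_eq_neg.1 this
  have g4 : (B x (chartAt C2 x x) *ᵥ S.loc x s (chartAt C2 x x)) i = 0 := by
    have e : S.gam *ᵥ B x (chartAt C2 x x) *ᵥ S.loc x s (chartAt C2 x x) =
        B x (chartAt C2 x x) *ᵥ S.loc x s (chartAt C2 x x) := by
      rw [mulVec_mulVec, ← neg_neg (S.gam * _), ← hB.odd x _ hz, neg_mulVec, ← mulVec_mulVec, g2,
        mulVec_neg, neg_neg]
    have := congrFun e i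
    rw [JH_gam h, if_neg hi] at this
    exact neg_eq_self.1 this
  rw [Pre.D, h.U_self, conjTranspose_one, one_mulVec, Pre.Dloc, Pi.add_apply, g4, add_zero,
    Finset.sum_apply, h.c]
  exact Finset.sum_eq_zero fun a _ =>
    JH_cc a (JH_fd hd (g3 1 rfl) _) (JH_fd hd (g3 2 rfl) _) hi

theorem JH_pr (h : Dolb S u l) (hB : S.IsOp B) (hx : x ∈ S.W p) {s : X → C4}
    (hs : DifferentiableAt ℝ (S.loc p s) (chartAt C2 p x)) (k m : ℕ) :
    S.U p x *ᵥ pr m *ᵥ S.D B (fun y => pr k *ᵥ s y) x =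
      pr m *ᵥ S.Dloc B p (fun y => pr k *ᵥ S.loc p s y) (chartAt C2 p x) := by
  have e : S.loc p (fun y => pr k *ᵥ s y) =ᶠ[𝓝 (chartAt C2 p x)]
      fun y => pr k *ᵥ S.loc p s y := by
    filter_upwards [((chartAt C2 p).tendsto_symm (S.W_sub p hx)).eventually
      ((S.W_open p).eventually_mem hx)] with y hy
    simp only [Pre.loc, mulVec_mulVec, h.U_pr hy]
  have hd : DifferentiableAt ℝ (fun y => pr k *ᵥ S.loc p s y) (chartAt C2 p x) :=
    JH_mv (M := fun _ => pr k) (fun _ _ => differentiableAt_const _) hs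
  rw [mulVec_mulVec, h.U_pr hx, ← mulVec_mulVec, hB.compat p x hx _ (hd.congr_of_eventuallyEq e)]
  simp only [Pre.Dloc, e.fderiv_eq, e.eq_of_nhds]

theorem Dolb.S_loc (h : Dolb S u l) (hu : IsBundle HolAt u) (hB : S.IsOp B) (hx : x ∈ S.W p)
    (hF : DifferentiableAt ℝ (S.loc p (fr S u l F)) (chartAt C2 p x)) :
    S.U p x *ᵥ (fr S u l ((2 : ℂ) • dbN u F) x -
      (pr 1 *ᵥ S.D B (fun y => pr 0 *ᵥ fr S u l F y) x +
        pr 2 *ᵥ S.D B (fun y => pr 1 *ᵥ fr S u l F y) x)) =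
      Sd S l B p (chartAt C2 p x) *ᵥ S.U p x *ᵥ fr S u l F x := by
  have hz : chartAt C2 p x ∈ S.V p := ⟨x, hx, rfl⟩
  have e : S.loc p (fr S u l F) (chartAt C2 p x) = S.U p x *ᵥ fr S u l F x := by
    simp only [Pre.loc, (chartAt C2 p).left_inv (S.W_sub p hx)]
  rw [mulVec_sub, mulVec_add, JH_pr h hB hx hF, JH_pr h hB hx hF, h.D_up hz hF, h.P_loc hu hx hF,
    ← e, Sd, sub_mulVec]
  abel

theorem Dolb.S_cov (h : Dolb S u l) (hu : IsBundle HolAt u) (hB : S.IsOp B) (hx : x ∈ S.W p) :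
    S.U p x * Sd S l B x (chartAt C2 x x) = Sd S l B p (chartAt C2 p x) * S.U p x := by
  refine Matrix.toLin'.injective (LinearMap.ext fun v => ?_)
  obtain ⟨F, hF⟩ := h.fr_bij.2 fun y => (S.U x y)ᴴ *ᵥ v
  have e : S.loc x (fr S u l F) = fun _ => v := by
    funext z
    rw [hF, Pre.loc, mulVec_mulVec, mul_eq_one_comm.1 (S.U_unit x _), one_mulVec]
  have d1 : DifferentiableAt ℝ (S.loc x (fr S u l F)) (chartAt C2 x x) := by
    rw [e]
    exact differentiableAt_const _
  have e0 : fr S u l F x = v := by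
    rw [hF]
    simp only [h.U_self, conjTranspose_one, one_mulVec]
  have h1 := h.S_loc hu hB (S.W_mem x) d1
  have h2 := h.S_loc hu hB hx (diff_tr hx (S.W_mem x) d1)
  rw [h.U_self, one_mulVec, one_mulVec] at h1
  rw [h1, e0] at h2
  simpa only [toLin'_apply, ← mulVec_mulVec] using h2

end Vale.Agent.P267Y
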