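import Vale.Agent.P267Y.JQ1

/-! The `L²` product. -/

open scoped Manifold ContDiff Topology ComplexConjugate
open Filter Metric Set Matrix MeasureTheory

noncomputable section

namespace Vale.Agent.P267Y

open Vale.Agent.P267 Vale.Agent.P267I

set_option linter.unusedSectionVars false

variable {X : Type} [TopologicalSpace X] [ChartedSpace C2 X] [T2Space X] [CompactSpace X]
  [IsManifold 𝓘(ℂ, C2) ω X] [MeasurableSpace X] [BorelSpace X] {N : ℕ} {S : P267I.Pre X N}
  {B : X → C2 → Mat N} {s t r : X → Vec N} {p x : X} {z : C2}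

theorem dot_int (hs : S.Sm s) (ht : S.Sm t) : Integrable (fun x => star (s x) ⬝ᵥ t x) S.μ := by
  have := mu_fin S
  exact (dot_cont hs ht).integrable_of_hasCompactSupport (HasCompactSupport.of_compactSpace _)

theorem ip_add_left (hs : S.Sm s) (ht : S.Sm t) (hr : S.Sm r) :
    S.ip (s + t) r = S.ip s r + S.ip t r := by
  simp only [Pre.ip, Pi.add_apply, star_add, add_dotProduct]
  exact integral_add (dot_int hs hr) (dot_int ht hr)

theorem ip_add_right (hs : S.Sm s) (ht : S.Sm t) (hr : S.Sm r) :
    S.ip r (s + t) = S.ip r s + S.ip r t := by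
  simp only [Pre.ip, Pi.add_apply, dotProduct_add]
  exact integral_add (dot_int hr hs) (dot_int hr ht)

theorem ip_smul_left (c : ℂ) (s t : X → Vec N) : S.ip (c • s) t = conj c * S.ip s t := by
  simp only [Pre.ip, Pi.smul_apply, star_smul, smul_dotProduct, smul_eq_mul, integral_const_mul]
  rfl

theorem ip_smul_right (c : ℂ) (s t : X → Vec N) : S.ip s (c • t) = c * S.ip s t := by
  simp only [Pre.ip, Pi.smul_apply, dotProduct_smul, smul_eq_mul, integral_const_mul]

theorem ip_zero (hs : S.Sm s) (h : S.ip s s = 0) : s = 0 := by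
  have := mu_pos S
  have hi := dot_int hs hs
  have e : ∀ x, (star (s x) ⬝ᵥ s x).re = ∑ i, Complex.normSq (s x i) := fun x => by
    simp only [dotProduct, Complex.re_sum, Pi.star_apply, RCLike.star_def,
      ← Complex.normSq_eq_conj_mul_self, Complex.ofReal_re]
  have h0 : ∀ x, 0 ≤ (star (s x) ⬝ᵥ s x).re := fun x => by
    rw [e]
    exact Finset.sum_nonneg fun i _ => Complex.normSq_nonneg _
  have h1 : ∫ x, (star (s x) ⬝ᵥ s x).re ∂S.μ = 0 := by
    have h2 := integral_re hi
    simp only [RCLike.re_to_complex] at h2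
    rw [h2]
    exact (congrArg Complex.re h).trans rfl
  have h3 := (integral_eq_zero_iff_of_nonneg h0 hi.re).1 h1
  have h4 := (Continuous.ae_eq_iff_eq S.μ (Complex.continuous_re.comp (dot_cont hs hs))
    continuous_zero).1 h3
  funext x i
  have h5 : ∑ i, Complex.normSq (s x i) = 0 := (e x).symm.trans (congrFun h4 x)
  exact Complex.normSq_eq_zero.1 ((Finset.sum_eq_zero_iff_of_nonneg
    fun i _ => Complex.normSq_nonneg _).1 h5 i (Finset.mem_univ i))

end Vale.Agent.P267Y
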