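import Vale.Agent.P267Y.JH
import Vale.Agent.P267Y.JQ

/-! The operator `2 (∂̄ + ∂̄*)`. With `T x = Sd x + (Sd x)ᴴ` at `chartAt x x` one has `D (Bd) s x = D B s x + T x *ᵥ s x` (`U_self`); `S_cov` and its adjoint (unitarity) give `compat` and smoothness of `T s`; `symm` by `ip_add_left`, `ip_add_right` and `T` Hermitian. `up (Sd) = Sd` (`up_R`, `pr_mul`), `up_odd`. `d0`, `d1`: `S_loc` with `p = x`; `D_gam` shows that `D B` of a section of degree 0 has degree 1. -/

open scoped Manifold ContDiff Topology ComplexConjugate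
open Filter Metric Set Matrix MeasureTheory

noncomputable section

namespace Vale.Agent.P267Y

open Vale.Agent.P267 Vale.Agent.P267I

set_option linter.unusedSectionVars false

variable {X : Type} [TopologicalSpace X] [ChartedSpace C2 X] [T2Space X] [CompactSpace X]
  [IsManifold 𝓘(ℂ, C2) ω X] [MeasurableSpace X] [BorelSpace X] {S : P267I.Pre X 4}
  {u : X → X → ℂ} {l : X → C2 → ℂ} {B : X → C2 → Mat 4} {F G : X → C4} {p q x : X} {z : C2}
  {k : ℕ}

/-- The Hermitian order zero correction. -/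
def JI_T (S : P267I.Pre X 4) (l : X → C2 → ℂ) (B : X → C2 → Mat 4) (p : X) (z : C2) : Mat 4 :=
  Sd S l B p z + (Sd S l B p z)ᴴ

theorem JI_loc (f : C2 → C4) :
    S.Dloc (Bd S l B) p f z = S.Dloc B p f z + JI_T S l B p z *ᵥ f z := by
  simp only [Pre.Dloc, Bd, JI_T, add_mulVec]
  abel

theorem JI_D (h : Dolb S u l) (s : X → C4) : S.D (Bd S l B) s =
    S.D B s + fun x => JI_T S l B x (chartAt C2 x x) *ᵥ s x := by
  funext x
  simp only [Pre.D, Pi.add_apply, JI_loc, h.U_self, conjTranspose_one, one_mulVec,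
    loc_ch (S.W_mem x)]

theorem JI_cov (h : Dolb S u l) (hu : IsBundle HolAt u) (hB : S.IsOp B) (hx : x ∈ S.W p) :
    S.U p x * JI_T S l B x (chartAt C2 x x) = JI_T S l B p (chartAt C2 p x) * S.U p x := by
  have h1 := h.S_cov hu hB hx
  have h2 := congrArg (fun M => S.U p x * Mᴴ * S.U p x) h1
  simp only [conjTranspose_mul, Matrix.mul_assoc, S.U_unit, Matrix.mul_one] at h2
  rw [← Matrix.mul_assoc (S.U p x) (S.U p x)ᴴ, mul_eq_one_comm.1 (S.U_unit p x),
    Matrix.one_mul] at h2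
  rw [JI_T, JI_T, Matrix.mul_add, Matrix.add_mul, h1, h2]

theorem JI_up (h : Dolb S u l) (hz : z ∈ S.V p) : Sd S l B p z = up (Rm S l p z - B p z) := by
  have := h.up_R hz
  rw [Sd]
  nth_rewrite 1 [← this]
  simp only [up, Matrix.mul_sub, Matrix.sub_mul]
  abel

theorem JI_sm (h : Dolb S u l) (hB : S.IsOp B) (p : X) (i j : Fin 4) :
    ContDiffOn ℝ ∞ (fun z => JI_T S l B p z i j) (S.V p) := by
  have h1 : ∀ i j, ContDiffOn ℝ ∞ (fun z => Sd S l B p z i j) (S.V p) := fun i j => by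
    simp only [Sd, up, pr, Matrix.sub_apply, Matrix.add_apply, mul_diagonal, diagonal_mul]
    exact (h.R_sm p i j).sub (((contDiffOn_const.mul (hB.sm p i j)).mul contDiffOn_const).add
      ((contDiffOn_const.mul (hB.sm p i j)).mul contDiffOn_const))
  simp only [JI_T, Matrix.add_apply, conjTranspose_apply]
  exact (h1 i j).add (Complex.conjCLE.contDiff.comp_contDiffOn (h1 j i))

theorem JI_odd (h : Dolb S u l) (hz : z ∈ S.V p) :
    JI_T S l B p z * S.gam = -(S.gam * JI_T S l B p z) := by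
  have h1 : Sd S l B p z * S.gam = -(S.gam * Sd S l B p z) := by
    rw [JI_up h hz, h.gam]
    exact up_odd _
  have h3 : S.gamᴴ = S.gam := by
    rw [h.gam, conjTranspose_sub, conjTranspose_sub, pr_herm, pr_herm, pr_herm]
  have h2 := congrArg conjTranspose h1
  rw [conjTranspose_neg, conjTranspose_mul, conjTranspose_mul, h3] at h2
  rw [JI_T, Matrix.mul_add, Matrix.add_mul, h1, h2]
  abel

theorem JI_Tsm (h : Dolb S u l) (hu : IsBundle HolAt u) (hB : S.IsOp B) {s : X → C4}
    (hs : S.Sm s) : S.Sm fun x => JI_T S l B x (chartAt C2 x x) *ᵥ s x := fun p => by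
  refine (JP_mv (JI_sm h hB p) (hs p)).congr fun z hz => ?_
  simp only [Pre.loc, mulVec_mulVec, JI_cov h hu hB (V_symm hz).1, (V_symm hz).2]

theorem JI_op (h : Dolb S u l) (hu : IsBundle HolAt u) (hB : S.IsOp B) : S.IsOp (Bd S l B) where
  sm p i j := (hB.sm p i j).add (JI_sm h hB p i j)
  odd p z hz := by
    show (B p z + JI_T S l B p z) * _ = -(_ * (B p z + JI_T S l B p z))
    rw [Matrix.mul_add, Matrix.add_mul, hB.odd p z hz, JI_odd h hz, neg_add]
  compat p x hx s hs := by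
    rw [JI_D h, Pi.add_apply, mulVec_add, hB.compat p x hx s hs, JI_loc, loc_ch hx,
      mulVec_mulVec, mulVec_mulVec, JI_cov h hu hB hx]
  symm s t hs ht := by
    rw [JI_D h, JI_D h, ip_add_left (D_sm hB hs) (JI_Tsm h hu hB hs) ht,
      ip_add_right (D_sm hB ht) (JI_Tsm h hu hB ht) hs, hB.symm s t hs ht]
    congr 1
    refine integral_congr_ae (.of_forall fun x => ?_)
    simp only [star_mulVec, dotProduct_mulVec, JI_T, conjTranspose_add,
      conjTranspose_conjTranspose, add_comm]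

theorem JI_zero : S.D B (fun _ => 0) x = 0 := by
  have e : S.loc x (fun _ => 0) = fun _ => 0 := funext fun z => by simp [Pre.loc]
  simp [Pre.D, Pre.Dloc, e]

theorem JI_adj (h : Dolb S u l) (hz : z ∈ S.V p) (v : C4) : (Sd S l B p z)ᴴ *ᵥ v =
    pr 0 *ᵥ (Rm S l p z - B p z)ᴴ *ᵥ pr 1 *ᵥ v + pr 1 *ᵥ (Rm S l p z - B p z)ᴴ *ᵥ pr 2 *ᵥ v := by
  rw [JI_up h hz]
  simp only [up, conjTranspose_add, conjTranspose_mul, pr_herm, add_mulVec, mulVec_mulVec,
    Matrix.mul_assoc]

theorem JI_pr {s : X → C4} (h : Dg k s) (m : ℕ) (x : X) :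
    pr m *ᵥ s x = if m = k then s x else 0 := by
  rw [← dg_iff.1 (h x), mulVec_mulVec, pr_mul]
  split_ifs with e
  · rw [e]
  · rw [zero_mulVec]

theorem Dolb.good (h : Dolb S u l) (hu : IsBundle HolAt u) (hB : S.IsOp B) :
    Good S u l (Bd S l B) := by
  refine ⟨JI_op h hu hB, fun F hF => ?_, fun F hF x => ?_⟩
  · have hs := (h.sm_fr hu).2 hF.1
    have hd := JI_pr (h.dg_fr.2 hF.2)
    funext x
    have h1 := h.S_loc hu hB (S.W_mem x) (sm_diff hs (S.W_mem x))
    have h2 := h.dg1 hB hs fun y => by rw [hd, if_neg (by norm_num)]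
    have h3 := JI_adj (B := B) h (V_mem (S.W_mem x)) (fr S u l F x)
    simp only [hd, if_true, one_ne_zero, if_false, JI_zero, h.U_self, one_mulVec, mulVec_zero,
      add_zero, OfNat.ofNat_ne_zero] at h1 h3
    rw [JI_pr h2, if_pos rfl] at h1
    rw [JI_D h, Pi.add_apply, JI_T, add_mulVec, h3, ← h1]
    abel
  · have hs := (h.sm_fr hu).2 hF.1
    have hd := JI_pr (h.dg_fr.2 hF.2)
    have h1 := h.S_loc hu hB (S.W_mem x) (sm_diff hs (S.W_mem x))
    have h3 := congrFun (JI_adj (B := B) h (V_mem (S.W_mem x)) (fr S u l F x)) 3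
    simp only [hd, if_true, zero_ne_one, if_false, JI_zero, h.U_self, one_mulVec, mulVec_zero,
      zero_add] at h1
    rw [Pi.add_apply, pr_apply, pr_apply, if_neg (by decide), if_neg (by decide), add_zero] at h3
    rw [JI_D h, Pi.add_apply, JI_T, add_mulVec, ← h1, Pi.add_apply, Pi.add_apply, h3,
      Pi.sub_apply, pr_apply, if_pos (by decide)]
    ring

end Vale.Agent.P267Y
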