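import Vale.Agent.P267Y.JK1
import Vale.Agent.P267Y.JI

/-! The kernel in degree two. For `F ∈ Om u 1`: `ip (fr F) (D (fr G)) = ip (D (fr F)) (fr G) = ip (fr (2 • dbN F)) (fr G)` (`symm`, `d1`, only the component 3 counts). `bump`: `exists_cut` in the chart. From right to left: `D (fr G) = fr F₁` has degree 1 (`D_gam`, `gam`), test with `χ ^ 2 • F₁` for a real bump `χ`, `key`, `ip_zero` for `χ • fr F₁`. From left to right: test with the form whose components in the chart are `χ * conj (dbar h (ee 0))` at 2 and `-χ * conj (dbar h (ee 1))` at 1; then `analyticAt_of_dbar`. -/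

open scoped Manifold ContDiff Topology ComplexConjugate
open Filter Metric Set Matrix MeasureTheory

noncomputable section

namespace Vale.Agent.P267Y

open Vale.Agent.P267 Vale.Agent.P267I

set_option linter.unusedSectionVars false

variable {X : Type} [TopologicalSpace X] [ChartedSpace C2 X] [T2Space X] [CompactSpace X]
  [IsManifold 𝓘(ℂ, C2) ω X] [MeasurableSpace X] [BorelSpace X] {S : P267I.Pre X 4}
  {u : X → X → ℂ} {l : X → C2 → ℂ} {B : X → C2 → Mat 4} {F G : X → C4} {p q x : X} {z : C2}
  {k : ℕ}

theorem bump (S : P267I.Pre X 4) (p : X) : ∃ χ : X → ℝ, (∀ q, SmAt (fun x => (χ x : ℂ)) q) ∧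
    tsupport χ ⊆ S.W p ∧ (∀ x, 0 ≤ χ x) ∧ ∀ᶠ x in 𝓝 p, χ x = 1 := by
  have hp := mem_chart_source C2 p
  have hn : (chartAt C2 p).target ∩ (chartAt C2 p).symm ⁻¹' S.W p ∈ 𝓝 (chartAt C2 p p) :=
    Filter.inter_mem ((chartAt C2 p).open_target.mem_nhds (mem_chart_target C2 p))
      (((chartAt C2 p).tendsto_symm hp).eventually ((S.W_open p).mem_nhds (S.W_mem p)))
  obtain ⟨r, hr, hb⟩ := Metric.nhds_basis_closedBall.mem_iff.1 hn
  let b : ContDiffBump (chartAt C2 p p) := ⟨r / 2, r, by positivity, by linarith⟩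
  have hK : IsCompact ((chartAt C2 p).symm '' closedBall (chartAt C2 p p) r) :=
    (isCompact_closedBall _ _).image_of_continuousOn
      ((chartAt C2 p).continuousOn_symm.mono fun z hz => (hb hz).1)
  have hs : tsupport ((chartAt C2 p).source.indicator fun x => b (chartAt C2 p x)) ⊆
      (chartAt C2 p).symm '' closedBall (chartAt C2 p p) r := by
    refine closure_minimal (fun x hx => ?_) hK.isClosed
    have h1 : x ∈ (chartAt C2 p).source := mem_of_indicator_ne_zero hx
    rw [Function.mem_support, indicator_of_mem h1] at hx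
    have h2 : chartAt C2 p x ∈ Function.support b := hx
    rw [b.support_eq] at h2
    exact ⟨_, ball_subset_closedBall h2, (chartAt C2 p).left_inv h1⟩
  refine ⟨(chartAt C2 p).source.indicator fun x => b (chartAt C2 p x), fun q => ?_,
    hs.trans ?_, fun x => indicator_nonneg (fun _ _ => b.nonneg) x, ?_⟩
  · by_cases hq : q ∈ (chartAt C2 p).source
    · refine ((isCh_chartAt p).sm q hq _).2 ?_
      filter_upwards [(chartAt C2 p).open_target.mem_nhds ((chartAt C2 p).map_source hq)] with z hz
      refine (Complex.ofRealCLM.contDiff.comp b.contDiff).contDiffAt.congr_of_eventuallyEq ?_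
      filter_upwards [(chartAt C2 p).open_target.mem_nhds hz] with y hy
      simp only [Function.comp_apply, indicator_of_mem ((chartAt C2 p).map_target hy),
        (chartAt C2 p).right_inv hy, Complex.ofRealCLM_apply]
    · have h1 : q ∉ tsupport ((chartAt C2 p).source.indicator fun x => b (chartAt C2 p x)) := by
        intro h2
        obtain ⟨z, hz, rfl⟩ := hs h2
        exact hq ((chartAt C2 p).map_target (hb hz).1)
      refine smAt_zero.congr ?_
      filter_upwards [notMem_tsupport_iff_eventuallyEq.1 h1] with x hx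
      rw [hx, Pi.zero_apply, Pi.zero_apply, Complex.ofReal_zero]
  · rintro _ ⟨z, hz, rfl⟩
    exact (hb hz).2
  · filter_upwards [(chartAt C2 p).open_source.mem_nhds hp,
      ((chartAt C2 p).continuousAt hp).eventually b.eventuallyEq_one] with x h1 h2
    rw [indicator_of_mem h1]
    exact h2

theorem Good.adj (hu : IsBundle HolAt u) (h : Dolb S u l) (hg : Good S u l B) (hF : F ∈ Om u 1)
    (hG : G ∈ Om u 2) : S.ip (fr S u l F) (S.D B (fr S u l G)) =
      2 * S.ip (fr S u l (dbN u F)) (fr S u l G) := by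
  rw [← hg.op.symm _ _ ((h.sm_fr hu).2 hF.1) ((h.sm_fr hu).2 hG.1)]
  unfold P267I.Pre.ip
  rw [← integral_const_mul]
  refine integral_congr_ae (ae_of_all _ fun x => ?_)
  have h2 : Dg 2 (fr S u l G) := h.dg_fr.2 hG.2
  have e0 := h2 x 0 (by decide)
  have e1 := h2 x 1 (by decide)
  have e2 := h2 x 2 (by decide)
  have e3 := hg.d1 F hF x
  rw [fr_smul] at e3
  simp only [dotProduct, Fin.sum_univ_four, e0, e1, e2, mul_zero, zero_add, Pi.star_apply, e3,
    Pi.smul_apply, smul_eq_mul, star_mul', star_ofNat]
  ring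

end Vale.Agent.P267Y
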