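import Vale.Agent.P267Y.JF
import Vale.Agent.P267Y.JQ

/-! Integration by parts in degree two. On `W p`: `(canon X / u) p * du u l G = l * conj (ψ 3) / det Em` with `ψ = S.loc p (fr G)` (`loc_fr`, `norm_l`, `jac_det`). `key`: `int_chart`, `rho_eq`, `Gd.db_loc`, `dbF_apply`, then `ibp` (P267S/Cal.lean) after extending `a` by zero off `V p` (the support of `F` is compact in `W p`). -/

open scoped Manifold ContDiff Topology ComplexConjugate
open Filter Metric Set Matrix MeasureTheory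

noncomputable section

namespace Vale.Agent.P267Y

open Vale.Agent.P267 Vale.Agent.P267I

set_option linter.unusedSectionVars false

variable {X : Type} [TopologicalSpace X] [ChartedSpace C2 X] [T2Space X] [CompactSpace X]
  [IsManifold 𝓘(ℂ, C2) ω X] [MeasurableSpace X] [BorelSpace X] {S : P267I.Pre X 4}
  {u : X → X → ℂ} {l : X → C2 → ℂ} {B : X → C2 → Mat 4} {F G : X → C4} {p q x : X} {z : C2}
  {k : ℕ}

theorem JK1_l3 (J : Matrix (Fin 2) (Fin 2) ℂ) (v : C4) : (lam J *ᵥ v) 3 = conj J.det * v 3 := by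
  simp [lam, mulVec, dotProduct, Fin.sum_univ_four]

theorem JK1_l0 (J : Matrix (Fin 2) (Fin 2) ℂ) {v : C4} (h : v 0 = 0 ∧ v 1 = 0 ∧ v 2 = 0) :
    (lam J *ᵥ v) 0 = 0 ∧ (lam J *ᵥ v) 1 = 0 ∧ (lam J *ᵥ v) 2 = 0 := by
  simp [lam, mulVec, dotProduct, Fin.sum_univ_four, h.1, h.2.1, h.2.2]

theorem JK1_loc3 (h : Dolb S u l) (hz : z ∈ S.V p) (G : X → C4) :
    S.loc p (fr S u l G) z 3 =
      l p z * (conj (Em S p z).det * loc u G p ((chartAt C2 p).symm z) 3) := by
  rw [h.loc_fr hz, Gm, smul_mulVec, Pi.smul_apply, smul_eq_mul, JK1_l3]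

theorem JK1_loc0 (h : Dolb S u l) (hG : Dg 2 G) (hz : z ∈ S.V p) :
    S.loc p (fr S u l G) z 0 = 0 ∧ S.loc p (fr S u l G) z 1 = 0 ∧
      S.loc p (fr S u l G) z 2 = 0 := by
  have h1 := JK1_l0 (jac p ((chartAt C2 p).symm z)) (v := G ((chartAt C2 p).symm z))
    ⟨hG _ 0 (by decide), hG _ 1 (by decide), hG _ 2 (by decide)⟩
  have h2 := JK1_l0 (Em S p z) (v := loc u G p ((chartAt C2 p).symm z)) (by
    simp only [loc, Pi.smul_apply, h1.1, h1.2.1, h1.2.2, smul_zero, and_self])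
  simp only [h.loc_fr hz, Gm, smul_mulVec, Pi.smul_apply, h2.1, h2.2.1, h2.2.2, smul_zero,
    and_self]

theorem JK1_dot (s t : X → C4) (p : X) (z : C2) :
    star (s ((chartAt C2 p).symm z)) ⬝ᵥ t ((chartAt C2 p).symm z) =
      star (S.loc p s z) ⬝ᵥ S.loc p t z := by
  rw [Pre.loc, Pre.loc, star_mulVec, dotProduct_mulVec, vecMul_vecMul, S.U_unit, vecMul_one]

theorem Dolb.du_eq (h : Dolb S u l) (hG : Dg 2 G) (hz : z ∈ S.V p) :
    ((canon X / u) p * du u l G) ((chartAt C2 p).symm z) =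
      l p z * conj (S.loc p (fr S u l G) z 3) / (Em S p z).det := by
  obtain ⟨hx, e⟩ := V_symm hz
  have hn := h.norm_l hx
  have h1 := (h.gd p _ hx).2.1
  have h2 := h.det_ne hz
  rw [e] at hn
  rw [JK1_loc3 h hz, Pi.mul_apply, Pi.div_apply, Pi.div_apply, du, ← hn, ← jac_det, loc,
    Pi.smul_apply, smul_eq_mul, JK1_l3, ← Complex.mul_conj]
  simp only [map_mul, Complex.conj_conj]
  field_simp

theorem Dolb.du_sm (h : Dolb S u l) (hu : IsBundle HolAt u) (hG : G ∈ Om u 2) (p : X) :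
    ContDiffOn ℝ ∞ (((canon X / u) p * du u l G) ∘ (chartAt C2 p).symm) (S.V p) := by
  have h1 : ContDiffOn ℝ ∞ (fun z => S.loc p (fr S u l G) z 3) (S.V p) :=
    contDiffOn_pi.1 ((h.sm_fr hu).2 hG.1 p) 3
  have h2 : ∀ a i, ContDiffOn ℝ ∞ (fun z => S.e p a z i) (S.V p) := fun a i =>
    contDiffOn_pi.1 (S.e_sm p a) i
  have h3 : ContDiffOn ℝ ∞ (fun z => (Em S p z).det) (S.V p) := by
    simp only [Em, det_fin_two_of]
    exact ((h2 0 0).mul (h2 2 1)).sub ((h2 2 0).mul (h2 0 1))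
  exact (((h.l_sm p).mul (Complex.conjCLE.contDiff.comp_contDiffOn h1)).mul
    (h3.inv fun z hz => h.det_ne hz)).congr fun z hz => (h.du_eq hG.2 hz).trans (div_eq_mul_inv _ _)

theorem Dolb.key (h : Dolb S u l) (hu : IsBundle HolAt u) (hF : F ∈ Om u 1) (hG : G ∈ Om u 2)
    (hs : tsupport F ⊆ S.W p) :
    conj (S.ip (fr S u l (dbN u F)) (fr S u l G)) = -∫ z in S.V p,
      (loc u F p ((chartAt C2 p).symm z) 2 *
        dbar (((canon X / u) p * du u l G) ∘ (chartAt C2 p).symm) z (ee 0) -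
      loc u F p ((chartAt C2 p).symm z) 1 *
        dbar (((canon X / u) p * du u l G) ∘ (chartAt C2 p).symm) z (ee 1)) := by
  set a := ((canon X / u) p * du u l G) ∘ (chartAt C2 p).symm with ha
  have hV := V_open S p
  have hsa : ∀ z ∈ S.V p, ContDiffAt ℝ ∞ a z := fun z hz =>
    (h.du_sm hu hG p).contDiffAt (hV.mem_nhds hz)
  have hψ : ∀ z ∈ S.V p, ContDiffAt ℝ ∞ (loc u F p ∘ (chartAt C2 p).symm) z := fun z hz => by
    have := (((h.gd p _ (V_symm hz).1).sm_iff hu).1 (hF.1 _)).self_of_nhds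
    rwa [(V_symm hz).2] at this
  let τ : Fin 4 → C2 → ℂ := fun i =>
    (S.V p).indicator fun z => loc u F p ((chartAt C2 p).symm z) i
  have hK : IsCompact (chartAt C2 p '' tsupport F) :=
    (isClosed_tsupport F).isCompact.image_of_continuousOn
      ((chartAt C2 p).continuousOn.mono (hs.trans (S.W_sub p)))
  have hKV : chartAt C2 p '' tsupport F ⊆ S.V p := image_mono hs
  have hτe : ∀ i, ∀ z ∈ S.V p, τ i =ᶠ[𝓝 z] fun z => loc u F p ((chartAt C2 p).symm z) i :=
    fun i z hz => by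
      filter_upwards [hV.mem_nhds hz] with y hy
      exact indicator_of_mem hy _
  have hτs : ∀ i, Function.support (τ i) ⊆ chartAt C2 p '' tsupport F := fun i y hy => by
    have h1 : y ∈ S.V p := by
      by_contra hn
      exact hy (indicator_of_notMem hn _)
    refine ⟨_, subset_tsupport F fun h0 => hy ?_, (V_symm h1).2⟩
    simp only [τ, indicator_of_mem h1, loc, h0, mulVec_zero, smul_zero, Pi.zero_apply]
  have hτt : ∀ i, tsupport (τ i) ⊆ chartAt C2 p '' tsupport F := fun i =>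
    closure_minimal (hτs i) hK.isClosed
  have hτc : ∀ i, HasCompactSupport (τ i) := fun i =>
    hK.of_isClosed_subset (isClosed_tsupport _) (hτt i)
  have hτ : ∀ i, ContDiff ℝ ∞ (τ i) := fun i => contDiff_iff_contDiffAt.2 fun z => by
    by_cases hz : z ∈ S.V p
    · exact (contDiffAt_pi.1 (hψ z hz) i).congr_of_eventuallyEq (hτe i z hz)
    · exact (contDiffAt_const (c := (0 : ℂ))).congr_of_eventuallyEq
        (notMem_tsupport_iff_eventuallyEq.1 fun h' => hz (hKV (hτt i h')))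
  have hsup : tsupport (fun x => star (fr S u l (dbN u F) x) ⬝ᵥ fr S u l G x) ⊆ S.W p := by
    refine (closure_minimal (fun x hx => ?_) (isClosed_tsupport F)).trans hs
    by_contra hn
    have h0 : dbN u F x = 0 := by
      have e : F =ᶠ[𝓝 x] (0 : ℂ) • F := by
        simpa using notMem_tsupport_iff_eventuallyEq.1 hn
      rw [dbN_congr e, dbN_smul 0 (hF.1 x), zero_smul]
    exact hx (by simp only [h.fr_zero.2 h0, star_zero, zero_dotProduct])
  rw [Pre.ip, int_chart (dot_cont ((h.sm_fr hu).2 (dbN_om hu hF).1) ((h.sm_fr hu).2 hG.1)) hsup,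
    ← integral_conj]
  have e1 : ∀ z ∈ S.V p, conj ((S.rho p z : ℂ) *
      (star (fr S u l (dbN u F) ((chartAt C2 p).symm z)) ⬝ᵥ fr S u l G ((chartAt C2 p).symm z))) =
      a z * dbar (τ 2) z (ee 0) - a z * dbar (τ 1) z (ee 1) := fun z hz => by
    obtain ⟨hx, e⟩ := V_symm hz
    have h0 := JK1_loc0 h hG.2 hz
    have h1 := (h.gd p _ hx).db_loc hu (F := F)
      (by rw [e]; exact (hψ z hz).differentiableAt (by simp))
    have h2 := h.det_ne hz
    have h3 : conj (Em S p z).det ≠ 0 := by simpa using h2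
    rw [e, dbF_apply] at h1
    rw [JK1_dot, dotProduct, Fin.sum_univ_four, h0.1, h0.2.1, h0.2.2, h.rho_eq hz, ha,
      Function.comp_apply, h.du_eq hG.2 hz, dbar_congr' (hτe 2 z hz), dbar_congr' (hτe 1 z hz),
      Pi.star_apply _ 3, JK1_loc3 h hz (dbN u F), h1, Complex.ofReal_inv, ← Complex.mul_conj]
    simp only [mul_zero, zero_add, map_mul, map_inv₀, Complex.conj_conj, Complex.star_def,
      Matrix.cons_val, Function.comp_apply]
    field_simp
  rw [setIntegral_congr_fun hV.measurableSet e1,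
    integral_sub (cal_int' hV hsa (hτ 2) (hτc 2) ((hτt 2).trans hKV) _)
      (cal_int' hV hsa (hτ 1) (hτc 1) ((hτt 1).trans hKV) _),
    ibp hV hsa (hτ 2) (hτc 2) ((hτt 2).trans hKV), ibp hV hsa (hτ 1) (hτc 1) ((hτt 1).trans hKV),
    ← neg_sub', ← integral_sub
      (cal_int hV (fun z hz => dbar_sm_apply (hsa z hz) _) (hτ 2) (hτc 2) ((hτt 2).trans hKV))
      (cal_int hV (fun z hz => dbar_sm_apply (hsa z hz) _) (hτ 1) (hτc 1) ((hτt 1).trans hKV))]
  congr 1
  refine setIntegral_congr_fun hV.measurableSet fun z hz => ?_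
  simp only [τ, indicator_of_mem hz]
  ring

end Vale.Agent.P267Y
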