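import Vale.Agent.P267Y.JK0

/-! The kernel in degree two. For `F ∈ Om u 1`: `ip (fr F) (D (fr G)) = ip (D (fr F)) (fr G) = ip (fr (2 • dbN F)) (fr G)` (`symm`, `d1`, only the component 3 counts). `bump`: `exists_cut` in the chart. From right to left: `D (fr G) = fr F₁` has degree 1 (`D_gam`, `gam`), test with `χ ^ 2 • F₁` for a real bump `χ`, `key`, `ip_zero` for `χ • fr F₁`. From left to right: test with the form whose components in the chart are `χ * conj (dbar h (ee 0))` at 2 and `-χ * conj (dbar h (ee 1))` at 1; then `analyticAt_of_dbar`. -/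

open scoped Manifold ContDiff Topology ComplexConjugate
open Filter Metric Set Matrix MeasureTheory

noncomputable section

namespace Vale.Agent.P267Y

open Vale.Agent.P267 Vale.Agent.P267I

set_option linter.unusedSectionVars false

variable {X : Type} [TopologicalSpace X] [ChartedSpace C2 X] [T2Space X] [CompactSpace X]
  [IsManifold 𝓘(ℂ, C2) ω X] [MeasurableSpace X] [BorelSpace X] {S : P267I.Pre X 4}
  {u : X → X → ℂ} {l : X → C2 → ℂ} {B : X → C2 → Mat 4} {F G : X → C4} {p q x : X} {z : C2}
  {k : ℕ}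

theorem JK2_can (hq : x ∈ (chartAt C2 p).source) : HolAt (canon X p / canon X x) x := by
  have hq' := mem_chart_source C2 x
  have h1 := P267M.jac_hol (P267M.jac_adm p) hq (P267M.det_an (cn_an hq hq'))
  refine AnalyticAt.congr h1 ?_
  filter_upwards [((chartAt C2 x).tendsto_symm hq').eventually
    (inter_mem ((chartAt C2 p).open_source.mem_nhds hq) (chart_source_mem_nhds C2 x))] with z hz
  simp only [Function.comp_apply, Pi.div_apply, canon]
  rw [cn_chain hz.1 hz.2 (mem_chart_source C2 _),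
    mul_div_cancel_right₀ _ (cn_ne hz.2 (mem_chart_source C2 _))]

theorem JK2_hol {s : X → ℂ} (hu : IsBundle HolAt u) (hg : Gd u p x)
    (h0 : HolAt ((canon X / u) x * s) x) : HolAt ((canon X / u) p * s) x := by
  have hx : u x x ≠ 0 := (hu x).self_of_nhds.1
  have h1 := ((JK2_can hg.1).div hg.2.2 (div_ne_zero hg.2.1 hx)).mul h0
  refine h1.congr ?_
  filter_upwards [hu x, canon_hol (X := X) x] with y a b
  have a1 := a.1
  have b1 := b.1
  simp only [Pi.mul_apply, Pi.div_apply]
  by_cases e : u p y = 0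
  · simp [e]
  · field_simp

theorem JK2_chart {f : X → ℂ} (hp : x ∈ (chartAt C2 p).source) (h : HolAt f x) :
    AnalyticAt ℂ (f ∘ (chartAt C2 p).symm) (chartAt C2 p x) := by
  have hx := mem_chart_source C2 x
  have e : (chartAt C2 x ∘ (chartAt C2 p).symm) (chartAt C2 p x) = chartAt C2 x x := by
    simp only [Function.comp_apply, (chartAt C2 p).left_inv hp]
  have h1 : AnalyticAt ℂ (f ∘ (chartAt C2 x).symm)
      ((chartAt C2 x ∘ (chartAt C2 p).symm) (chartAt C2 p x)) := by
    rw [e]
    exact h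
  refine (h1.comp (cn_an hp hx)).congr ?_
  filter_upwards [((chartAt C2 p).tendsto_symm hp).eventually
    ((chartAt C2 x).eventually_left_inverse hx)] with y hy
  simp only [Function.comp_apply] at hy ⊢
  rw [hy]

theorem Good.ker_of (h : Dolb S u l) (hu : IsBundle HolAt u) (hg : Good S u l B)
    (hG : G ∈ Om u 2) (h0 : ∀ p, HolAt ((canon X / u) p * du u l G) p) :
    S.D B (fr S u l G) = 0 := by
  have hGs : S.Sm (fr S u l G) := (h.sm_fr hu).2 hG.1
  have hts : S.Sm (S.D B (fr S u l G)) := D_sm hg.op hGs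
  have hG2 : Dg 2 (fr S u l G) := h.dg_fr.2 hG.2
  have ht1 : Dg 1 (S.D B (fr S u l G)) := by
    refine h.dg1 hg.op hGs fun y => ?_
    funext i
    rw [pr_apply]
    split_ifs with e
    · exact hG2 y i (by omega)
    · rfl
  obtain ⟨F₁, hF₁⟩ := h.fr_bij.2 (S.D B (fr S u l G))
  have hF1 : Dg 1 F₁ := h.dg_fr.1 (hF₁ ▸ ht1)
  funext p
  obtain ⟨χ, c1, c2, -, c4⟩ := bump S p
  have hfr : fr S u l (fun y => ((χ y : ℂ) * χ y) • F₁ y) =
      fun y => ((χ y : ℂ) * χ y) • S.D B (fr S u l G) y := by
    funext y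
    rw [← hF₁]
    simp only [fr, mulVec_smul]
  have hF : (fun y => ((χ y : ℂ) * χ y) • F₁ y) ∈ Om u 1 := by
    refine ⟨(h.sm_fr hu).1 ?_, fun q i e => ?_⟩
    · rw [hfr]
      exact sm_fun (χ := fun y => (χ y : ℂ) * χ y) (fun q => (c1 q).mul (c1 q)) hts
    · simp [hF1 q i e]
  have hs : tsupport (fun y => ((χ y : ℂ) * χ y) • F₁ y) ⊆ S.W p := by
    have e0 : Function.support (fun y => ((χ y : ℂ) * χ y) • F₁ y) ⊆ Function.support χ := by
      intro y hy e
      apply hy
      simp [e]
    exact (closure_mono e0).trans c2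
  have hk := h.key hu hF hG hs
  have hz : ∀ z ∈ S.V p,
      dbar (((canon X / u) p * du u l G) ∘ (chartAt C2 p).symm) z = 0 := by
    intro z hz
    obtain ⟨a, b⟩ := V_symm hz
    have h1 := JK2_chart (S.W_sub p a) (JK2_hol hu (h.gd p _ a) (h0 _))
    rw [b] at h1
    exact dbar_hol' h1.differentiableAt
  rw [setIntegral_eq_zero_of_forall_eq_zero (fun z hzz => by rw [hz z hzz]; simp), neg_zero,
    map_eq_zero] at hk
  have ha := hg.adj hu h hF hG
  rw [hk, mul_zero, hfr] at ha
  have hb : S.ip (fun y => (χ y : ℂ) • S.D B (fr S u l G) y)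
      (fun y => (χ y : ℂ) • S.D B (fr S u l G) y) = 0 := by
    rw [← ha]
    unfold P267I.Pre.ip
    refine integral_congr_ae (.of_forall fun y => ?_)
    simp only [star_smul, smul_dotProduct, dotProduct_smul, smul_eq_mul, star_mul',
      Complex.star_def, Complex.conj_ofReal]
    ring
  have hc := congrFun (ip_zero (sm_fun c1 hts) hb) p
  simpa [c4.self_of_nhds] using hc

end Vale.Agent.P267Y
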