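import Vale.Agent.P267Y.JK1
import Vale.Agent.P267Y.JE0

/-! The rank in degree two. `G ↦ du u l G` is additive, conjugate linear and bijective from `K` to `H0 id (canon X / u)` (`h0_mem`; the inverse is `σ ↦ Pi.single 3 (conj σ / normSq ..)`, smooth by `sm_fr`, `du_eq`). `rank_eq_of_equiv_equiv` with `starRingEnd ℂ`. -/

open scoped Manifold ContDiff Topology ComplexConjugate
open Filter Metric Set Matrix MeasureTheory

noncomputable section

namespace Vale.Agent.P267Y

open Vale.Agent.P267 Vale.Agent.P267I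

set_option linter.unusedSectionVars false

variable {X : Type} [TopologicalSpace X] [ChartedSpace C2 X] [T2Space X] [CompactSpace X]
  [IsManifold 𝓘(ℂ, C2) ω X] [MeasurableSpace X] [BorelSpace X] {S : P267I.Pre X 4}
  {u : X → X → ℂ} {l : X → C2 → ℂ} {B : X → C2 → Mat 4} {F G : X → C4} {p q x : X} {z : C2}
  {k : ℕ}

/-- The form of degree two given by a section. -/
def JK3_inv (u : X → X → ℂ) (l : X → C2 → ℂ) (σ : X → ℂ) (x : X) : C4 :=
  Pi.single 3 (conj (σ x) / (Complex.normSq (l x (chartAt C2 x x) * u x x) : ℂ))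

theorem JK3_ne (h : Dolb S u l) (x : X) :
    (Complex.normSq (l x (chartAt C2 x x) * u x x) : ℂ) ≠ 0 := by
  rw [Complex.ofReal_ne_zero, Ne, Complex.normSq_eq_zero]
  exact mul_ne_zero (h.l_ne x _ (V_mem (S.W_mem x))) (h.gd x x (S.W_mem x)).2.1

theorem JK3_du (h : Dolb S u l) (σ : X → ℂ) : du u l (JK3_inv u l σ) = σ := by
  funext x
  have h0 := JK3_ne h x
  simp only [du, JK3_inv, Pi.single_eq_same, map_div₀, Complex.conj_conj, Complex.conj_ofReal]
  exact mul_div_cancel₀ _ h0

theorem JK3_dg (σ : X → ℂ) : Dg 2 (JK3_inv u l σ) := fun q i hi => by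
  have h3 : i ≠ 3 := by
    rintro rfl
    exact hi rfl
  simp only [JK3_inv, Pi.single_eq_of_ne h3]

theorem JK3_left (h : Dolb S u l) (hG : Dg 2 G) : JK3_inv u l (du u l G) = G := by
  funext x i
  have h0 := JK3_ne h x
  by_cases h3 : i = 3
  · subst h3
    simp only [du, JK3_inv, Pi.single_eq_same, map_mul, Complex.conj_conj, Complex.conj_ofReal]
    rw [← map_mul]
    exact mul_div_cancel_left₀ _ h0
  · rw [hG x i, JK3_inv, Pi.single_eq_of_ne h3]
    fin_cases i <;> simp [dg] at h3 ⊢

theorem JK3_lam (J : Matrix (Fin 2) (Fin 2) ℂ) (g : ℂ) :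
    lam J *ᵥ Pi.single 3 g = Pi.single 3 (conj J.det * g) := by
  funext i
  fin_cases i <;> simp [lam]

theorem JK3_l (h : Dolb S u l) (p : X) : SmAt (fun q => l p (chartAt C2 p q)) p := by
  filter_upwards [(V_open S p).mem_nhds (V_mem (S.W_mem p))] with z hz
  refine ((h.l_sm p).contDiffAt ((V_open S p).mem_nhds hz)).congr_of_eventuallyEq ?_
  filter_upwards [(V_open S p).mem_nhds hz] with y hy
  simp only [Function.comp_apply, (V_symm hy).2]

theorem JK3_sm (h : Dolb S u l) {σ : X → ℂ} (hσ : HolAt ((canon X / u) p * σ) p) :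
    SmP u (JK3_inv u l σ) p := fun i => by
  by_cases h3 : i = 3
  · subst h3
    have h0 := h.l_ne p _ (V_mem (S.W_mem p))
    refine (hσ.smAt.conj.div ((JK3_l h p).mul (JK3_l h p).conj)
      (mul_ne_zero h0 ((map_ne_zero _).2 h0))).congr ?_
    filter_upwards [(S.W_open p).mem_nhds (S.W_mem p)] with q hq
    have h1 := h.l_ne p _ (V_mem hq)
    have h2 := (h.gd p q hq).2.1
    have h1' : conj (l p (chartAt C2 p q)) ≠ 0 := (map_ne_zero _).2 h1
    have h2' : conj (u p q) ≠ 0 := (map_ne_zero _).2 h2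
    rw [loc, JK3_inv, JK3_lam, jac_det, ← h.norm_l hq, ← Complex.mul_conj]
    simp only [Pi.div_apply, Pi.mul_apply, Pi.smul_apply, Pi.single_eq_same, map_mul, map_div₀,
      smul_eq_mul]
    field_simp
  · refine smAt_zero.congr (.of_forall fun q => ?_)
    simp only [loc, JK3_inv, JK3_lam, Pi.smul_apply, Pi.single_eq_of_ne h3, smul_zero,
      Pi.zero_apply]

theorem Dolb.h2_rank (h : Dolb S u l) (hu : IsBundle HolAt u) {K : Submodule ℂ (X → C4)}
    (hK : ∀ G, G ∈ K ↔ G ∈ Om u 2 ∧ ∀ p, HolAt ((canon X / u) p * du u l G) p) :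
    Module.finrank ℂ K = Module.finrank ℂ (H0 id (canon X / u)) := by
  have _ := hu
  let j : K ≃+ H0 id (canon X / u) :=
    { toFun := fun G => ⟨du u l G.1, h0_mem.2 ((hK _).1 G.2).2⟩
      invFun := fun σ => ⟨JK3_inv u l σ.1, (hK _).2
        ⟨⟨fun p => JK3_sm h (h0_mem.1 σ.2 p), JK3_dg _⟩, fun p => by
          rw [JK3_du h]
          exact h0_mem.1 σ.2 p⟩⟩
      left_inv := fun G => Subtype.ext (JK3_left h ((hK _).1 G.2).1.2)
      right_inv := fun σ => Subtype.ext (JK3_du h _)
      map_add' := fun F G => Subtype.ext (funext fun x => by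
        simp only [du, Submodule.coe_add, Pi.add_apply, map_add, mul_add]) }
  unfold Module.finrank
  congr 1
  refine rank_eq_of_equiv_equiv (fun c : ℂ => conj c) j
    (Function.Involutive.bijective Complex.conj_conj) fun c G => Subtype.ext (funext fun x => ?_)
  change du u l (c • G.1) x = conj c * du u l G.1 x
  simp only [du, Pi.smul_apply, smul_eq_mul, map_mul]
  ring

end Vale.Agent.P267Y
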