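import Vale.Agent.P267Y.JK0

/-! The kernel in degree two. For `F ∈ Om u 1`: `ip (fr F) (D (fr G)) = ip (D (fr F)) (fr G) = ip (fr (2 • dbN F)) (fr G)` (`symm`, `d1`, only the component 3 counts). `bump`: `exists_cut` in the chart. From right to left: `D (fr G) = fr F₁` has degree 1 (`D_gam`, `gam`), test with `χ ^ 2 • F₁` for a real bump `χ`, `key`, `ip_zero` for `χ • fr F₁`. From left to right: test with the form whose components in the chart are `χ * conj (dbar h (ee 0))` at 2 and `-χ * conj (dbar h (ee 1))` at 1; then `analyticAt_of_dbar`. -/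

open scoped Manifold ContDiff Topology ComplexConjugate
open Filter Metric Set Matrix MeasureTheory

noncomputable section

namespace Vale.Agent.P267Y

open Vale.Agent.P267 Vale.Agent.P267I

set_option linter.unusedSectionVars false

variable {X : Type} [TopologicalSpace X] [ChartedSpace C2 X] [T2Space X] [CompactSpace X]
  [IsManifold 𝓘(ℂ, C2) ω X] [MeasurableSpace X] [BorelSpace X] {S : P267I.Pre X 4}
  {u : X → X → ℂ} {l : X → C2 → ℂ} {B : X → C2 → Mat 4} {F G : X → C4} {p q x : X} {z : C2}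
  {k : ℕ}

theorem JK4_ex (h : Dolb S u l) (p : X) (φ : C2 → C4) : ∃ F : X → C4,
    (∀ x ∈ S.W p, loc u F p x = φ (chartAt C2 p x)) ∧
    (∀ x, (x ∈ S.W p → φ (chartAt C2 p x) = 0) → F x = 0) ∧
    ((∀ z i, dg i ≠ 1 → φ z i = 0) → Dg 1 F) := by
  classical
  obtain ⟨F, hF⟩ := h.fr_bij.2 fun x => if x ∈ S.W p then
    (S.U p x)ᴴ *ᵥ (Gm S l p (chartAt C2 p x) *ᵥ φ (chartAt C2 p x)) else 0
  have e1 : ∀ x ∈ S.W p, fr S u l F x =
      (S.U p x)ᴴ *ᵥ (Gm S l p (chartAt C2 p x) *ᵥ φ (chartAt C2 p x)) := fun x hx => by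
    rw [hF]
    exact if_pos hx
  have e2 : ∀ x, x ∉ S.W p → fr S u l F x = 0 := fun x hx => by
    rw [hF]
    exact if_neg hx
  refine ⟨F, fun x hx => ?_, fun x hx => h.fr_zero.1 ?_,
    fun hφ => h.dg_fr.1 fun x => dg_iff.2 ?_⟩
  · have h1 := h.U_fr hx F
    rw [e1 x hx, mulVec_mulVec _ (S.U p x), _root_.mul_eq_one_comm.1 (S.U_unit p x),
      one_mulVec] at h1
    exact (Matrix.mulVec_injective_iff_isUnit.2
      ((Matrix.isUnit_iff_isUnit_det _).2 (h.G_unit (V_mem hx)))) h1.symm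
  · by_cases hW : x ∈ S.W p
    · rw [e1 x hW, hx hW, mulVec_zero, mulVec_zero]
    · exact e2 x hW
  · by_cases hW : x ∈ S.W p
    · have h2 : pr 1 * (S.U p x)ᴴ = (S.U p x)ᴴ * pr 1 := by
        have h3 := congrArg conjTranspose (h.U_pr hW 1)
        rwa [conjTranspose_mul, conjTranspose_mul, pr_herm] at h3
      rw [e1 x hW, mulVec_mulVec _ (pr 1), h2, ← mulVec_mulVec, mulVec_mulVec _ (pr 1), ← G_pr,
        ← mulVec_mulVec, dg_iff.1 (hφ _)]
    · rw [e2 x hW, mulVec_zero]

theorem JK4_zero {V K : Set C2} {g : C2 → ℝ} (hV : IsOpen V) (hK : IsCompact K) (hKV : K ⊆ V)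
    (hg : ContinuousOn g V) (h0 : ∀ z, 0 ≤ g z) (h1 : ∀ z ∈ V \ K, g z = 0)
    (h2 : ∫ z in V, g z = 0) : ∀ z ∈ V, g z = 0 := by
  have h3 : IntegrableOn g V :=
    ((hg.mono hKV).integrableOn_compact hK).of_forall_sdiff_eq_zero hV.measurableSet h1
  exact Measure.eqOn_open_of_ae_eq
    ((setIntegral_eq_zero_iff_of_nonneg_ae (.of_forall h0) h3).1 h2) hV hg continuousOn_const

theorem Good.hol_of (h : Dolb S u l) (hu : IsBundle HolAt u) (hg : Good S u l B)
    (hG : G ∈ Om u 2) (h0 : S.D B (fr S u l G) = 0) (p : X) :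
    HolAt ((canon X / u) p * du u l G) p := by
  obtain ⟨χ, c1, c2, c3, c4⟩ := bump S p
  obtain ⟨f, hf⟩ : ∃ f, f = ((canon X / u) p * du u l G) ∘ (chartAt C2 p).symm := ⟨_, rfl⟩
  have fs : ∀ z ∈ S.V p, ContDiffAt ℝ ∞ f z := fun z hz => by
    rw [hf]
    exact (h.du_sm hu hG p).contDiffAt ((V_open S p).mem_nhds hz)
  have cs : ∀ z ∈ S.V p, ContDiffAt ℝ ∞ (fun y => (χ ((chartAt C2 p).symm y) : ℂ)) z :=
    fun z hz => by
      have h1 := (((isCh_chartAt p).sm _ (S.W_sub p (V_symm hz).1) _).1 (c1 _)).self_of_nhds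
      rwa [(V_symm hz).2] at h1
  have ds : ∀ k : Fin 2, ∀ z ∈ S.V p, ContDiffAt ℝ ∞
      (fun y => (χ ((chartAt C2 p).symm y) : ℂ) * conj (dbar f y (ee k))) z := fun k z hz =>
    (cs z hz).mul (Complex.conjCLE.contDiff.contDiffAt.comp z (dbar_sm_apply (fs z hz) (ee k)))
  obtain ⟨φ, hφ⟩ : ∃ φ : C2 → C4, φ = fun y =>
      ![0, -((χ ((chartAt C2 p).symm y) : ℂ) * conj (dbar f y (ee 1))),
        (χ ((chartAt C2 p).symm y) : ℂ) * conj (dbar f y (ee 0)), 0] := ⟨_, rfl⟩
  obtain ⟨F, f1, f2, f3⟩ := JK4_ex h p φ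
  have f4 : ∀ x, χ x = 0 → F x = 0 := fun x hx => f2 x fun hW => by
    rw [hφ]
    funext i
    fin_cases i <;> simp [(chartAt C2 p).left_inv (S.W_sub p hW), hx]
  have f5 : tsupport F ⊆ tsupport χ := closure_mono fun x hx h0 => hx (f4 x h0)
  have f6 : ∀ z ∈ S.V p, loc u F p ((chartAt C2 p).symm z) = φ z := fun z hz => by
    rw [f1 _ (V_symm hz).1, (V_symm hz).2]
  have hF : F ∈ Om u 1 := by
    refine ⟨fun q => ?_, f3 fun z i hi => ?_⟩
    · by_cases hq : q ∈ tsupport χ
      · refine ((h.gd p q (c2 hq)).sm_iff hu).2 ?_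
        filter_upwards [(V_open S p).mem_nhds (V_mem (c2 hq))] with z hz
        refine ContDiffAt.congr_of_eventuallyEq (f := φ) ?_ ?_
        · rw [hφ]
          refine contDiffAt_pi.2 fun i => ?_
          fin_cases i
          · exact contDiffAt_const
          · exact (ds 1 z hz).neg
          · exact ds 0 z hz
          · exact contDiffAt_const
        · filter_upwards [(V_open S p).mem_nhds hz] with y hy using f6 y hy
      · refine SmP.congr ((Om u 1).zero_mem.1 q) ?_
        filter_upwards [notMem_tsupport_iff_eventuallyEq.1 hq] with x hx using (f4 x hx).symm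
    · rw [hφ]
      fin_cases i
      · rfl
      · exact absurd rfl hi
      · exact absurd rfl hi
      · rfl
  have h1 := hg.adj hu h hF hG
  have h2 : S.ip (fr S u l F) 0 = 0 := by simp [Pre.ip]
  rw [h0, h2] at h1
  have h4 := h.key hu hF hG (f5.trans c2)
  rw [(mul_eq_zero.1 h1.symm).resolve_left two_ne_zero, map_zero, ← hf] at h4
  obtain ⟨g, hg'⟩ : ∃ g : C2 → ℝ, g = fun z => χ ((chartAt C2 p).symm z) *
      (Complex.normSq (dbar f z (ee 0)) + Complex.normSq (dbar f z (ee 1))) := ⟨_, rfl⟩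
  have h5 : ∫ z in S.V p, g z = 0 := by
    rw [setIntegral_congr_fun (g := fun z => (g z : ℂ)) (V_open S p).measurableSet fun z hz => by
      simp only [f6 z hz, hφ, hg']
      simp [Complex.normSq_eq_conj_mul_self]
      ring, integral_complex_ofReal] at h4
    exact Complex.ofReal_eq_zero.1 (neg_eq_zero.1 h4.symm)
  have h6 : ∀ z ∈ S.V p, g z = 0 := by
    refine JK4_zero (K := chartAt C2 p '' tsupport χ) (V_open S p)
      ((isClosed_tsupport χ).isCompact.image_of_continuousOn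
        ((chartAt C2 p).continuousOn.mono (c2.trans (S.W_sub p)))) (image_mono c2)
      (fun z hz => ?_) (fun z => ?_) (fun z hz => ?_) h5
    · have a1 : ContinuousAt (fun y => χ ((chartAt C2 p).symm y)) z :=
        ContinuousAt.comp (g := Complex.re) Complex.continuous_re.continuousAt
          (cs z hz).continuousAt
      have a2 : ∀ k : Fin 2, ContinuousAt (fun y => Complex.normSq (dbar f y (ee k))) z :=
        fun k => ContinuousAt.comp (g := Complex.normSq) Complex.continuous_normSq.continuousAt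
          (dbar_sm_apply (fs z hz) (ee k)).continuousAt
      rw [hg']
      exact (a1.mul ((a2 0).add (a2 1))).continuousWithinAt
    · rw [hg']
      exact mul_nonneg (c3 _) (add_nonneg (Complex.normSq_nonneg _) (Complex.normSq_nonneg _))
    · have a1 : χ ((chartAt C2 p).symm z) = 0 :=
        image_eq_zero_of_notMem_tsupport fun hc => hz.2 ⟨_, hc, (V_symm hz.1).2⟩
      rw [hg']
      simp only [a1, zero_mul]
  have hV := (V_open S p).mem_nhds (V_mem (S.W_mem p))
  unfold HolAt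
  rw [← hf]
  refine analyticAt_of_dbar (Filter.mem_of_superset hV fs) ?_
  filter_upwards [hV, ((chartAt C2 p).tendsto_symm (mem_chart_source C2 p)).eventually c4]
    with z hz hz1
  have h7 := h6 z hz
  rw [hg'] at h7
  simp only [hz1, one_mul] at h7
  have h8 := (add_eq_zero_iff_of_nonneg (Complex.normSq_nonneg _) (Complex.normSq_nonneg _)).1 h7
  refine ContinuousLinearMap.ext fun v => ?_
  rw [dbar_vec, Fin.sum_univ_two, Complex.normSq_eq_zero.1 h8.1, Complex.normSq_eq_zero.1 h8.2]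
  simp

end Vale.Agent.P267Y
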