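import Vale.Agent.P267Y.JP1
import Vale.Agent.P267I.Cl

/-! The operator of an abstract system is linear, odd and preserves smoothness. -/

open scoped Manifold ContDiff Topology ComplexConjugate
open Filter Metric Set Matrix MeasureTheory

noncomputable section

namespace Vale.Agent.P267Y

open Vale.Agent.P267 Vale.Agent.P267I

set_option linter.unusedSectionVars false

variable {X : Type} [TopologicalSpace X] [ChartedSpace C2 X] [T2Space X] [CompactSpace X]
  [IsManifold 𝓘(ℂ, C2) ω X] [MeasurableSpace X] [BorelSpace X] {N : ℕ} {S : P267I.Pre X N}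
  {B : X → C2 → Mat N} {s t r : X → Vec N} {p x : X} {z : C2}

theorem JP_mv {A : C2 → Mat N} {f : C2 → Vec N} {U : Set C2}
    (hA : ∀ i j, ContDiffOn ℝ ∞ (fun z => A z i j) U) (hf : ContDiffOn ℝ ∞ f U) :
    ContDiffOn ℝ ∞ (fun z => A z *ᵥ f z) U :=
  contDiffOn_pi.2 fun i => by
    simp only [mulVec, dotProduct]
    exact ContDiffOn.sum fun j _ => (hA i j).mul (contDiffOn_pi.1 hf j)

theorem D_sm (hB : S.IsOp B) (hs : S.Sm s) : S.Sm (S.D B s) := by
  intro p
  have h1 : ContDiffOn ℝ ∞ (fderiv ℝ (S.loc p s)) (S.V p) :=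
    (hs p).fderiv_of_isOpen (V_open S p) (by simp)
  have h2 : ContDiffOn ℝ ∞ (S.Dloc B p (S.loc p s)) (S.V p) :=
    (ContDiffOn.sum fun a _ => JP_mv (A := fun _ => S.c a) (fun _ _ => contDiffOn_const)
      (h1.clm_apply (S.e_sm p a))).add (JP_mv (hB.sm p) (hs p))
  refine h2.congr fun z hz => ?_
  obtain ⟨a, b⟩ := V_symm hz
  have := hB.compat p _ a s (sm_diff hs a)
  rw [b] at this
  exact this

theorem D_add (hs : S.Sm s) (ht : S.Sm t) : S.D B (s + t) = S.D B s + S.D B t := by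
  funext x
  have e : S.loc x (s + t) = S.loc x s + S.loc x t := funext fun z => mulVec_add _ _ _
  simp only [Pre.D, Pre.Dloc, Pi.add_apply, e]
  rw [fderiv_add (sm_diff hs (S.W_mem x)) (sm_diff ht (S.W_mem x)), ← mulVec_add]
  congr 1
  simp only [_root_.add_apply, mulVec_add, Finset.sum_add_distrib]
  abel

theorem D_smul (c : ℂ) (hs : S.Sm s) : S.D B (c • s) = c • S.D B s := by
  funext x
  have e : S.loc x (c • s) = c • S.loc x s := funext fun z =>
    mulVec_smul (S.U x _) c (s _)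
  simp only [Pre.D, Pre.Dloc, Pi.smul_apply, e]
  rw [fderiv_const_smul (sm_diff hs (S.W_mem x)), ← mulVec_smul]
  congr 1
  simp only [_root_.smul_apply, mulVec_smul, smul_add, Finset.smul_sum]

theorem JP_fd (M : Mat N) {f : C2 → Vec N} (hf : DifferentiableAt ℝ f z) (v : C2) :
    fderiv ℝ (fun y => M *ᵥ f y) z v = M *ᵥ fderiv ℝ f z v := by
  have h := ((LinearMap.toContinuousLinearMap
    ((Matrix.mulVecLin M).restrictScalars ℝ)).hasFDerivAt.comp z hf.hasFDerivAt).fderiv
  exact congrArg (fun L : C2 →L[ℝ] Vec N => L v) h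

theorem D_gam (hB : S.IsOp B) (hs : S.Sm s) :
    (S.D B fun x => S.gam *ᵥ s x) = fun x => -(S.gam *ᵥ S.D B s x) := by
  funext x
  have e : S.loc x (fun x => S.gam *ᵥ s x) = fun z => S.gam *ᵥ S.loc x s z := funext fun z => by
    simp only [Pre.loc, mulVec_mulVec, S.U_gam]
  have hc : ∀ a, S.c a * S.gam = -(S.gam * S.c a) := fun a => IsCl.c_gam (c := S.c) S.rel a
  have hU : (S.U x x)ᴴ * S.gam = S.gam * (S.U x x)ᴴ := by
    have h1 := S.U_unit x x
    have h2 := mul_eq_one_comm.1 h1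
    calc (S.U x x)ᴴ * S.gam = (S.U x x)ᴴ * (S.gam * S.U x x) * (S.U x x)ᴴ := by
          rw [mul_assoc, mul_assoc, h2, mul_one]
      _ = _ := by rw [← S.U_gam, ← mul_assoc, h1, one_mul]
  simp only [Pre.D, Pre.Dloc, e, JP_fd _ (sm_diff hs (S.W_mem x))]
  rw [mulVec_mulVec _ S.gam, ← hU, ← mulVec_mulVec, ← mulVec_neg]
  congr 1
  simp only [mulVec_mulVec, hc, hB.odd x _ (V_mem (S.W_mem x)), neg_mulVec, mulVec_add,
    mulVec_sum, Finset.sum_neg_distrib, neg_add]

theorem mem_Ker {ε : ℂ} : s ∈ S.Ker B ε ↔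
    S.Sm s ∧ S.D B s = 0 ∧ ∀ x, S.gam *ᵥ s x = ε • s x := by
  refine ⟨fun h => ?_, fun h => Submodule.subset_span h⟩
  induction h using Submodule.span_induction with
  | mem s h => exact h
  | zero =>
    refine ⟨sm_zero, ?_, fun x => by simp⟩
    have := D_smul (B := B) 0 (sm_zero (S := S))
    rwa [zero_smul, zero_smul] at this
  | add s t _ _ hs ht =>
    refine ⟨sm_add hs.1 ht.1, by rw [D_add hs.1 ht.1, hs.2.1, ht.2.1, add_zero], fun x => ?_⟩
    rw [Pi.add_apply, mulVec_add, hs.2.2, ht.2.2, smul_add]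
  | smul c s _ hs =>
    refine ⟨sm_smul c hs.1, by rw [D_smul c hs.1, hs.2.1, smul_zero], fun x => ?_⟩
    rw [Pi.smul_apply, mulVec_smul, hs.2.2, smul_comm]

end Vale.Agent.P267Y
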