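import Vale.Agent.P267Y.Defs2

/-! Smooth sections of an abstract system. `V_open`: `OpenPartialHomeomorph.isOpen_image_of_subset_source`. `D_sm`: by `compat`, on `V p` the expression of `D s` is `Dloc`. `sm_of`: smoothness is local, change of frame by `U_sm`, `U_unit` and the smooth change of chart (`cn_an`). `gam` anticommutes with all `c a` (from `rel`). -/

open scoped Manifold ContDiff Topology ComplexConjugate
open Filter Metric Set Matrix MeasureTheory

noncomputable section

namespace Vale.Agent.P267Y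

open Vale.Agent.P267 Vale.Agent.P267I

set_option linter.unusedSectionVars false

variable {X : Type} [TopologicalSpace X] [ChartedSpace C2 X] [T2Space X] [CompactSpace X]
  [IsManifold 𝓘(ℂ, C2) ω X] [MeasurableSpace X] [BorelSpace X] {N : ℕ} {S : P267I.Pre X N}
  {B : X → C2 → Mat N} {s t r : X → Vec N} {p x : X} {z : C2}

theorem V_open (S : P267I.Pre X N) (p : X) : IsOpen (S.V p) := by
  exact (chartAt C2 p).isOpen_image_of_subset_source (S.W_open p) (S.W_sub p)

theorem V_mem (hx : x ∈ S.W p) : chartAt C2 p x ∈ S.V p := by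
  exact mem_image_of_mem _ hx

theorem V_symm (hz : z ∈ S.V p) : (chartAt C2 p).symm z ∈ S.W p ∧
    chartAt C2 p ((chartAt C2 p).symm z) = z := by
  obtain ⟨x, hx, rfl⟩ := hz
  rw [(chartAt C2 p).left_inv (S.W_sub p hx)]
  exact ⟨hx, rfl⟩

theorem loc_ch (hx : x ∈ S.W p) (s : X → Vec N) : S.loc p s (chartAt C2 p x) = S.U p x *ᵥ s x := by
  rw [Pre.loc, (chartAt C2 p).left_inv (S.W_sub p hx)]

theorem sm_zero : S.Sm 0 := by
  intro p
  exact contDiffOn_const.congr fun z _ => show S.U p _ *ᵥ 0 = 0 from mulVec_zero _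

theorem sm_add (hs : S.Sm s) (ht : S.Sm t) : S.Sm (s + t) := by
  intro p
  exact ((hs p).add (ht p)).congr fun z _ => show S.U p _ *ᵥ (_ + _) = _ from mulVec_add _ _ _

theorem sm_smul (c : ℂ) (hs : S.Sm s) : S.Sm (c • s) := by
  intro p
  exact ((hs p).const_smul c).congr fun z _ => show S.U p _ *ᵥ (c • _) = _ from mulVec_smul _ _ _

theorem sm_fun {χ : X → ℂ} (hχ : ∀ p, SmAt χ p) (hs : S.Sm s) : S.Sm fun x => χ x • s x := by
  intro p
  have h : ContDiffOn ℝ ∞ (χ ∘ (chartAt C2 p).symm) (S.V p) := by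
    rintro _ ⟨x, hx, rfl⟩
    exact (((isCh_chartAt p).sm x (S.W_sub p hx) χ).1 (hχ x)).self_of_nhds.contDiffWithinAt
  exact (h.smul (hs p)).congr fun z _ => show S.U p _ *ᵥ (_ • _) = _ from mulVec_smul _ _ _

theorem sm_mat {M : Mat N} (hM : ∀ p, ∀ x ∈ S.W p, S.U p x * M = M * S.U p x) (hs : S.Sm s) :
    S.Sm fun x => M *ᵥ s x := by
  intro p
  have h : ContDiff ℝ ∞ fun v : Vec N => M *ᵥ v :=
    ((Matrix.mulVecLin M).toContinuousLinearMap.restrictScalars ℝ).contDiff
  refine (h.comp_contDiffOn (hs p)).congr fun z hz => ?_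
  simp only [Pre.loc, Function.comp, mulVec_mulVec, hM p _ (V_symm hz).1]

theorem sm_diff (hs : S.Sm s) (hx : x ∈ S.W p) :
    DifferentiableAt ℝ (S.loc p s) (chartAt C2 p x) := by
  exact ((hs p).contDiffAt ((V_open S p).mem_nhds (V_mem hx))).differentiableAt (by simp)

end Vale.Agent.P267Y
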