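import Vale.Agent.P267Y.JP

/-! The product. `dot_cont`: near `p` the function is `star (loc s) ⬝ᵥ loc t` in the chart (`U_unit`). `mu_fin`: every point has a neighbourhood of finite measure (`μ_eq`, a compact ball in `V p`, `rho` is continuous by `e_sm`, `e_pos`), then compactness. `int_chart`: `setIntegral_eq_integral_of_forall_compl_eq_zero`, `μ_eq`, `integral_map` (or a measurable embedding), `integral_withDensity_eq_integral_smul`. `mu_pos`: open sets have positive measure. `ip_zero`: `Continuous.integral_pos_of_hasCompactSupport_nonneg_nonzero` or `integral_eq_zero_iff_of_nonneg`. -/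

open scoped Manifold ContDiff Topology ComplexConjugate
open Filter Metric Set Matrix MeasureTheory

noncomputable section

namespace Vale.Agent.P267Y

open Vale.Agent.P267 Vale.Agent.P267I

set_option linter.unusedSectionVars false

variable {X : Type} [TopologicalSpace X] [ChartedSpace C2 X] [T2Space X] [CompactSpace X]
  [IsManifold 𝓘(ℂ, C2) ω X] [MeasurableSpace X] [BorelSpace X] {N : ℕ} {S : P267I.Pre X N}
  {B : X → C2 → Mat N} {s t r : X → Vec N} {p x : X} {z : C2}

theorem JQ1_fdet : Continuous fdet := by
  refine Continuous.matrix_det (continuous_matrix fun a b => ?_)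
  fin_cases b <;> simp only [co, Matrix.of_apply] <;> fun_prop

theorem JQ1_pos (hz : z ∈ S.V p) : 0 < S.rho p z := inv_pos.2 (S.e_pos p z hz)

theorem JQ1_symm (S : P267I.Pre X N) (p : X) : ContinuousOn (chartAt C2 p).symm (S.V p) :=
  (chartAt C2 p).continuousOn_symm.mono fun _ ⟨_, hx, e⟩ =>
    e ▸ (chartAt C2 p).map_source (S.W_sub p hx)

theorem JQ1_meas (S : P267I.Pre X N) (p : X) : AEMeasurable (chartAt C2 p).symm
    ((volume.restrict (S.V p)).withDensity fun z => ENNReal.ofReal (S.rho p z)) :=
  ((JQ1_symm S p).aemeasurable (V_open S p).measurableSet).mono_ac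
    (withDensity_absolutelyContinuous _ _)

theorem JQ1_eq (S : P267I.Pre X N) (p : X) : S.μ.restrict (S.W p) = Measure.map (chartAt C2 p).symm
    ((volume.restrict (S.V p)).withDensity fun z => ENNReal.ofReal (S.rho p z)) := S.μ_eq p

theorem dot_cont (hs : S.Sm s) (ht : S.Sm t) : Continuous fun x => star (s x) ⬝ᵥ t x := by
  refine continuous_iff_continuousAt.2 fun p => ?_
  have hp := S.W_mem p
  have hV := (V_open S p).mem_nhds (V_mem hp)
  have k : Continuous fun q : Vec N × Vec N => star q.1 ⬝ᵥ q.2 :=
    continuous_fst.star.dotProduct continuous_snd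
  refine ((k.continuousAt.comp (((hs p).continuousOn.continuousAt hV).prodMk
    ((ht p).continuousOn.continuousAt hV))).comp
    ((chartAt C2 p).continuousAt (S.W_sub p hp))).congr ?_
  filter_upwards [(S.W_open p).mem_nhds hp] with x hx
  simp only [Function.comp_apply, loc_ch hx]
  rw [star_mulVec, dotProduct_mulVec, vecMul_vecMul, S.U_unit, vecMul_one]

theorem rho_cont (S : P267I.Pre X N) (p : X) : ContinuousOn (S.rho p) (S.V p) := by
  exact (JQ1_fdet.comp_continuousOn (continuousOn_pi.2 fun a => (S.e_sm p a).continuousOn)).inv₀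
    fun z hz => (S.e_pos p z hz).ne'

theorem JQ1_den (S : P267I.Pre X N) (p : X) :
    AEMeasurable (fun z => ENNReal.ofReal (S.rho p z)) (volume.restrict (S.V p)) :=
  ((rho_cont S p).aemeasurable (V_open S p).measurableSet).ennreal_ofReal

theorem mu_fin (S : P267I.Pre X N) : IsFiniteMeasure S.μ := by
  have : IsLocallyFiniteMeasure S.μ := ⟨fun p => by
    have hp := S.W_mem p
    obtain ⟨K, hK, h1, h2⟩ := exists_compact_subset (V_open S p) (V_mem hp)
    have hA : IsOpen (S.W p ∩ chartAt C2 p ⁻¹' interior K) :=
      ((chartAt C2 p).continuousOn.mono (S.W_sub p)).isOpen_inter_preimage (S.W_open p)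
        isOpen_interior
    refine ⟨_, hA.mem_nhds ⟨hp, h1⟩, ?_⟩
    rw [← Measure.restrict_eq_self S.μ inter_subset_left, JQ1_eq,
      Measure.map_apply_of_aemeasurable (JQ1_meas S p) hA.measurableSet]
    refine (measure_mono_ae (t := K) ?_).trans_lt ?_
    · filter_upwards [withDensity_absolutelyContinuous _ _
        (ae_restrict_mem (V_open S p).measurableSet)] with z hz h
      have h3 : chartAt C2 p ((chartAt C2 p).symm z) ∈ interior K := h.2
      rw [(V_symm hz).2] at h3
      exact interior_subset h3
    · rw [withDensity_apply _ hK.measurableSet, Measure.restrict_restrict hK.measurableSet,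
        inter_eq_left.2 h2]
      exact (((rho_cont S p).mono h2).integrableOn_compact hK).lintegral_lt_top⟩
  infer_instance

theorem mu_pos (S : P267I.Pre X N) : S.μ.IsOpenPosMeasure := by
  refine ⟨fun O hO ⟨p, hp⟩ h0 => ?_⟩
  have h1 : S.μ.restrict (S.W p) O = 0 := Measure.absolutelyContinuous_restrict h0
  rw [JQ1_eq, Measure.map_apply_of_aemeasurable (JQ1_meas S p) hO.measurableSet] at h1
  have h2 := withDensity_absolutelyContinuous' (JQ1_den S p)
    ((ae_restrict_mem (V_open S p).measurableSet).mono fun z hz =>
      (ENNReal.ofReal_pos.2 (JQ1_pos hz)).ne') h1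
  rw [Measure.restrict_apply' (V_open S p).measurableSet, inter_comm] at h2
  refine ((JQ1_symm S p).isOpen_inter_preimage (V_open S p) hO).measure_ne_zero volume
    ⟨chartAt C2 p p, V_mem (S.W_mem p), ?_⟩ h2
  rwa [mem_preimage, (chartAt C2 p).left_inv (mem_chart_source C2 p)]

theorem int_chart {f : X → ℂ} (hf : Continuous f) (h : tsupport f ⊆ S.W p) :
    ∫ x, f x ∂S.μ = ∫ z in S.V p, (S.rho p z : ℂ) * f ((chartAt C2 p).symm z) := by
  rw [← setIntegral_eq_integral_of_forall_compl_eq_zero (s := S.W p) fun x hx =>
      image_eq_zero_of_notMem_tsupport fun k => hx (h k), JQ1_eq,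
    integral_map (JQ1_meas S p) hf.aestronglyMeasurable,
    integral_withDensity_eq_integral_toReal_smul₀ (JQ1_den S p)
      (Eventually.of_forall fun _ => ENNReal.ofReal_lt_top)]
  refine setIntegral_congr_fun (V_open S p).measurableSet fun z hz => ?_
  simp only [ENNReal.toReal_ofReal (JQ1_pos hz).le, Complex.real_smul]

end Vale.Agent.P267Y
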