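import Vale.Agent.P267Y.JE
import Vale.Agent.P267Y.JK2
import Vale.Agent.P267Y.JK3
import Vale.Agent.P267Y.JK4

/-! The index of the Dolbeault system. -/

open scoped Manifold ContDiff Topology ComplexConjugate
open Filter Metric Set Matrix MeasureTheory

noncomputable section

namespace Vale.Agent.P267Y

open Vale.Agent.P267 Vale.Agent.P267I

set_option linter.unusedSectionVars false

variable {X : Type} [TopologicalSpace X] [ChartedSpace C2 X] [T2Space X] [CompactSpace X]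
  [IsManifold 𝓘(ℂ, C2) ω X] [MeasurableSpace X] [BorelSpace X] {S : P267I.Pre X 4}
  {u : X → X → ℂ} {l : X → C2 → ℂ} {B : X → C2 → Mat 4} {F G : X → C4} {p q x : X} {z : C2}
  {k : ℕ}

theorem M_gam (v : C4) : (pr 1 - pr 0 - pr 2) *ᵥ v = ![-v 0, v 1, v 2, -v 3] := by
  funext i
  simp only [sub_mulVec, Pi.sub_apply, pr_apply]
  fin_cases i <;> simp [dg]

theorem M_pr (v : C4) : pr 0 *ᵥ v = ![v 0, 0, 0, 0] ∧ pr 1 *ᵥ v = ![0, v 1, v 2, 0] ∧
    pr 2 *ᵥ v = ![0, 0, 0, v 3] := by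
  refine ⟨funext fun i => ?_, funext fun i => ?_, funext fun i => ?_⟩ <;> rw [pr_apply] <;>
    fin_cases i <;> simp [dg]

theorem M_plus {v : C4} : (pr 1 - pr 0 - pr 2) *ᵥ v = (1 : ℂ) • v ↔ pr 1 *ᵥ v = v := by
  rw [M_gam, (M_pr v).2.1, one_smul]
  simp only [funext_iff, Fin.forall_fin_succ]
  simp [neg_eq_iff_add_eq_zero, eq_comm (a := (0 : ℂ))]

theorem M_minus {v : C4} : (pr 1 - pr 0 - pr 2) *ᵥ v = (-1 : ℂ) • v ↔ pr 1 *ᵥ v = 0 := by
  rw [M_gam, (M_pr v).2.1]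
  simp only [funext_iff, Fin.forall_fin_succ]
  simp [eq_neg_iff_add_eq_zero]

theorem M_om (h : Dolb S u l) (hu : IsBundle HolAt u) (hF : S.Sm (fr S u l F)) (k : ℕ) :
    (fun x => pr k *ᵥ F x) ∈ Om u k := by
  refine ⟨(h.sm_fr hu).1 ?_, fun x => dg_iff.2 ?_⟩
  · rw [fr_pr]
    exact sm_mat (fun p x hx => h.U_pr hx k) hF
  · rw [mulVec_mulVec, pr_mul, if_pos rfl]

theorem M_closed (h : Dolb S u l) (hg : Good S u l B) (hF : F ∈ Om u 1)
    (h0 : S.D B (fr S u l F) = 0) : dbN u F = 0 := by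
  have h1 : Dg 2 (fr S u l ((2 : ℂ) • dbN u F)) := h.dg_fr.2 fun x i hi => by
    simp [dbN_dg hF.2 x i hi]
  funext x
  have h2 : fr S u l ((2 : ℂ) • dbN u F) x = 0 := by
    have h3 := hg.d1 F hF x
    rw [h0] at h3
    rw [← dg_iff.1 (h1 x), (M_pr _).2.2, ← h3]
    funext i
    fin_cases i <;> rfl
  simpa using h.fr_zero.1 h2

theorem M_orth (h : Dolb S u l) (hu : IsBundle HolAt u) (hg : Good S u l B) (hF : F ∈ Om u 1)
    (h0 : dbN u F = 0) (hG : G ∈ Om u 2) : S.ip (fr S u l F) (S.D B (fr S u l G)) = 0 := by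
  have e : fr S u l (0 : X → C4) = 0 := funext fun x => h.fr_zero.2 rfl
  rw [hg.adj hu h hF hG, h0, e]
  simp [P267I.Pre.ip]

theorem M_dd (hu : IsBundle HolAt u) (hG : G ∈ Om u k) (c : ℂ) : dbN u (c • dbN u G) = 0 :=
  funext fun x => by rw [dbN_smul c ((hG.1 x).db hu), dbN_dbN hu (hG.1 x), smul_zero, Pi.zero_apply]

theorem M_sum (F : X → C4) : F = (fun x => pr 0 *ᵥ F x) + (fun x => pr 1 *ᵥ F x) +
    fun x => pr 2 *ᵥ F x := by
  funext x
  simp only [Pi.add_apply, ← add_mulVec, pr_sum, one_mulVec]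

theorem M_dec (h : Dolb S u l) (hu : IsBundle HolAt u) (hg : Good S u l B) (hH : Hodge S)
    (hF : F ∈ Om u 1) (h0 : dbN u F = 0) : ∃ H ∈ Om u 1, S.D B (fr S u l H) = 0 ∧
      ∃ G ∈ Om u 0, F = H + dbN u G := by
  obtain ⟨a, s, ha, hs, a0, e⟩ := (hH B hg.op).2 _ ((h.sm_fr hu).2 hF.1)
  obtain ⟨H, rfl⟩ := h.fr_bij.2 a
  obtain ⟨G, rfl⟩ := h.fr_bij.2 s
  have sm : ∀ {k} {A : X → C4}, A ∈ Om u k → S.Sm (fr S u l A) := fun hA => (h.sm_fr hu).2 hA.1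
  have g0 := M_om h hu hs 0
  have g1 := M_om h hu hs 1
  have g2 := M_om h hu hs 2
  have h1 := M_om h hu ha 1
  have sg : S.Sm fun x => S.gam *ᵥ fr S u l H x := sm_mat (fun p x _ => S.U_gam p x) ha
  have k1 : S.D B (fr S u l fun x => pr 1 *ᵥ H x) = 0 := by
    have e1 : (fr S u l fun x => pr 1 *ᵥ H x) =
        (2⁻¹ : ℂ) • (fr S u l H + fun x => S.gam *ᵥ fr S u l H x) := by
      rw [fr_pr]
      funext x i
      simp only [Pi.smul_apply, Pi.add_apply, h.gam, M_gam, (M_pr _).2.1, smul_eq_mul]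
      fin_cases i <;> simp <;> ring
    rw [e1, D_smul _ (sm_add ha sg), D_add ha sg, D_gam hg.op ha, a0]
    funext x
    simp
  have k2 : ∀ x, pr 1 *ᵥ S.D B (fr S u l fun x => pr 1 *ᵥ G x) x = 0 := fun x => by
    have e1 : (fun y => S.gam *ᵥ (fr S u l fun x => pr 1 *ᵥ G x) y) =
        fr S u l fun x => pr 1 *ᵥ G x := funext fun y => by
      rw [h.gam, M_plus.2 (dg_iff.1 (h.dg_fr.2 g1.2 y)), one_smul]
    have e2 := congrFun (D_gam hg.op (sm g1)) x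
    rw [e1, h.gam] at e2
    refine M_minus.1 ?_
    rw [neg_smul, one_smul]
    exact (neg_eq_iff_eq_neg.1 e2.symm)
  have k3 := h.dg1 hg.op (sm g2) fun x => by
    rw [fr_pr, mulVec_mulVec, pr_mul]
    simp
  have d1 := (Om u 1).smul_mem (2 : ℂ) (dbN_om hu g0)
  have e3 : fr S u l F = fr S u l (fun x => pr 1 *ᵥ H x) +
      fr S u l ((2 : ℂ) • dbN u fun x => pr 0 *ᵥ G x) + S.D B (fr S u l fun x => pr 2 *ᵥ G x) := by
    funext x
    have e4 := congrArg (pr 1 *ᵥ ·) (congrFun e x)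
    rw [M_sum G, fr_add, fr_add, D_add (sm_add (sm g0) (sm g1)) (sm g2), D_add (sm g0) (sm g1),
      hg.d0 _ g0] at e4
    simp only [Pi.add_apply, mulVec_add, k2, add_zero, dg_iff.1 (h.dg_fr.2 hF.2 x),
      dg_iff.1 (h.dg_fr.2 d1.2 x), dg_iff.1 (k3 x)] at e4
    rw [e4, fr_pr 1 H]
    simp only [Pi.add_apply, add_assoc]
  have m := (Om u 1).add_mem hF ((Om u 1).smul_mem (-1 : ℂ) ((Om u 1).add_mem h1 d1))
  have e5 : S.D B (fr S u l fun x => pr 2 *ᵥ G x) = fr S u l (F + (-1 : ℂ) •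
      ((fun x => pr 1 *ᵥ H x) + (2 : ℂ) • dbN u fun x => pr 0 *ᵥ G x)) := by
    rw [fr_add, fr_smul, fr_add, e3, neg_smul, one_smul]
    abel
  have e6 := M_orth h hu hg m (funext fun x => by
    rw [dbN_add (hF.1 x) (((Om u 1).smul_mem (-1 : ℂ) ((Om u 1).add_mem h1 d1)).1 x),
      dbN_smul _ (((Om u 1).add_mem h1 d1).1 x), dbN_add (h1.1 x) (d1.1 x), h0,
      M_closed h hg h1 k1, M_dd hu g0]
    simp) g2
  rw [← e5] at e6
  rw [ip_zero (D_sm hg.op (sm g2)) e6, add_zero, ← fr_add] at e3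
  refine ⟨_, h1, k1, _, (Om u 0).smul_mem (2 : ℂ) g0, (h.fr_bij.1 e3).trans ?_⟩
  congr 1
  exact funext fun x => (dbN_smul _ (g0.1 x)).symm

theorem Good.euler [ConnectedSpace X] (h : Dolb S u l) (hu : IsBundle HolAt u)
    (hg : Good S u l B) (hH : Hodge S) : Euler id u (canon X) (-(S.ind B)) := by
  let φ : (X → C4) ≃ₗ[ℂ] (X → C4) :=
    LinearEquiv.ofBijective ⟨⟨fr S u l, fr_add⟩, fr_smul⟩ h.fr_bij
  have sm : ∀ {k} {A : X → C4}, A ∈ Om u k → S.Sm (fr S u l A) := fun hA => (h.sm_fr hu).2 hA.1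
  have f1 := (hH B hg.op).1 1
  have f2 := (hH B hg.op).1 (-1)
  have r1 := (φ.ofSubmodule' (S.Ker B 1)).finrank_eq
  have r2 := (φ.ofSubmodule' (S.Ker B (-1))).finrank_eq
  have := (φ.ofSubmodule' (S.Ker B 1)).symm.finiteDimensional
  have := (φ.ofSubmodule' (S.Ker B (-1))).symm.finiteDimensional
  set Hm := (S.Ker B 1).comap (φ : (X → C4) →ₗ[ℂ] (X → C4)) with hHm
  set Km := (S.Ker B (-1)).comap (φ : (X → C4) →ₗ[ℂ] (X → C4)) with hKm
  have m1 : ∀ F, F ∈ Hm ↔ F ∈ Om u 1 ∧ S.D B (fr S u l F) = 0 := fun F => by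
    refine mem_Ker.trans ⟨fun k => ⟨⟨(h.sm_fr hu).1 k.1, h.dg_fr.1 fun x => dg_iff.2
      (M_plus.1 (h.gam ▸ k.2.2 x))⟩, k.2.1⟩, fun k => ⟨sm k.1, k.2, fun x => ?_⟩⟩
    rw [h.gam]
    exact M_plus.2 (dg_iff.1 (h.dg_fr.2 k.1.2 x))
  have m2 : ∀ F, F ∈ Km ↔ S.Sm (fr S u l F) ∧ S.D B (fr S u l F) = 0 ∧
      ∀ x, pr 1 *ᵥ fr S u l F x = 0 := fun F => by
    refine mem_Ker.trans ?_
    simp only [h.gam, M_minus]
    rfl
  have ev : ∀ {k} {A : X → C4}, k ≠ 1 → A ∈ Om u k → ∀ x, pr 1 *ᵥ fr S u l A x = 0 :=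
    fun hk hA x => by
      rw [← dg_iff.1 (h.dg_fr.2 hA.2 x), mulVec_mulVec, pr_mul, if_neg hk.symm, zero_mulVec]
  obtain ⟨a1, a2⟩ := dolb_iso hu (Hm := Hm) (fun F k => ((m1 F).1 k).1)
    (fun F k => M_closed h hg ((m1 F).1 k).1 ((m1 F).1 k).2)
    (fun F k k0 => by
      obtain ⟨H, b1, b2, G, b3, b4⟩ := M_dec h hu hg hH k k0
      exact ⟨H, (m1 H).2 ⟨b1, b2⟩, G, b3, b4⟩)
    (fun G k k0 => by
      have b := hg.op.symm _ _ (sm k) (sm (dbN_om hu k))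
      rw [((m1 _).1 k0).2, hg.d0 G k, fr_smul, ip_smul_left] at b
      have b2 : S.ip (fr S u l (dbN u G)) (fr S u l (dbN u G)) = 0 := by
        simpa [P267I.Pre.ip] using b
      exact funext fun x => h.fr_zero.1 (congrFun (ip_zero (sm (dbN_om hu k)) b2) x))
  have a3 := h0_rank hu (K := Km ⊓ Om u 0) fun F => ⟨fun k => ⟨k.2, funext fun x => by
      have b := congrFun ((hg.d0 F k.2).symm.trans ((m2 F).1 k.1).2.1) x
      simpa using h.fr_zero.1 b⟩,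
    fun k => ⟨(m2 F).2 ⟨sm k.1, by
      rw [hg.d0 F k.1, k.2, smul_zero]
      exact funext fun x => h.fr_zero.2 rfl, ev zero_ne_one k.1⟩, k.1⟩⟩
  have a4 := h.h2_rank hu (K := Km ⊓ Om u 2) fun G =>
    ⟨fun k => ⟨k.2, hg.hol_of h hu k.2 ((m2 G).1 k.1).2.1⟩,
      fun k => ⟨(m2 G).2 ⟨sm k.1, hg.ker_of h hu k.1 k.2, ev (by norm_num) k.1⟩, k.1⟩⟩
  have a5 : Km ⊓ Om u 0 ⊔ Km ⊓ Om u 2 = Km := by
    refine le_antisymm (sup_le inf_le_left inf_le_left) fun F k => ?_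
    obtain ⟨b1, b2, b3⟩ := (m2 F).1 k
    have g0 := M_om h hu b1 0
    have g2 := M_om h hu b1 2
    have e : F = (fun x => pr 0 *ᵥ F x) + fun x => pr 2 *ᵥ F x := by
      have e1 : (fun x => pr 1 *ᵥ F x) = 0 := funext fun x =>
        h.fr_zero.1 (by rw [fr_pr]; exact b3 x)
      simpa only [e1, add_zero] using M_sum F
    have d1 := (Om u 1).smul_mem (2 : ℂ) (dbN_om hu g0)
    have c1 := M_orth h hu hg d1 (M_dd hu g0 2) g2
    rw [e, fr_add, D_add (sm g0) (sm g2)] at b2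
    have c2 : S.D B (fr S u l fun x => pr 0 *ᵥ F x) =
        (-1 : ℂ) • S.D B (fr S u l fun x => pr 2 *ᵥ F x) := by
      rw [neg_smul, one_smul]
      exact eq_neg_of_add_eq_zero_left b2
    rw [← hg.d0 _ g0, c2, ip_smul_left] at c1
    have c3 := ip_zero (D_sm hg.op (sm g2)) ((mul_eq_zero.1 c1).resolve_left (by simp))
    rw [c3, smul_zero] at c2
    rw [e]
    exact Submodule.add_mem_sup ⟨(m2 _).2 ⟨sm g0, c2, ev zero_ne_one g0⟩, g0⟩
      ⟨(m2 _).2 ⟨sm g2, c3, ev (by norm_num) g2⟩, g2⟩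
  have a6 : Km ⊓ Om u 0 ⊓ (Km ⊓ Om u 2) = ⊥ := by
    refine eq_bot_iff.2 fun F k => funext fun x => funext fun i => ?_
    by_cases hi : dg i = 0
    · exact k.2.2.2 x i (by omega)
    · exact k.1.2.2 x i hi
  have := Submodule.finiteDimensional_of_le (inf_le_left : Km ⊓ Om u 0 ≤ Km)
  have := Submodule.finiteDimensional_of_le (inf_le_left : Km ⊓ Om u 2 ≤ Km)
  have a7 := Submodule.finrank_sup_add_finrank_inf_eq (Km ⊓ Om u 0) (Km ⊓ Om u 2)
  rw [a5, a6, finrank_bot, a3, a4] at a7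
  refine ⟨a1, ?_⟩
  rw [a2, P267I.Pre.ind, ← r1, ← r2]
  omega

theorem euler_ind [ConnectedSpace X] (hu : IsBundle HolAt u) (h : Dolb S u l) (hB : S.IsOp B)
    (hH : Hodge S) (hI : S.IndInv) : Euler id u (canon X) (-(S.ind B)) := by
  rw [hI B _ hB (h.good hu hB).op]
  exact (h.good hu hB).euler h hu hH

end Vale.Agent.P267Y
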